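import Claimed.Agent.R285.Green.Lap

/-!
# ROW 285, PK-GREEN: the bounds (GRN-K edges, GRN-L derivatives, GRN-M value, GRN-N comparison) and the EXPORTS `green_bounds`, `green_compare`, `green_high`   (architect helper185)
-/

set_option autoImplicit false

namespace Claimed.Agent.R285.Green

open scoped BigOperators
open Claimed.Agent.R285.RG Claimed.Agent.R285.Hol

noncomputable section

variable {M : ℕ}

theorem two_le_of_VD (v : VD M) : 2 ≤ M := by
  have := v.1.isLt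
  omega

theorem gt_gs_lower {k : ℕ} (hk : k < M - 1) : 2 * ((k : ℝ) + 1) / M ≤ gt (gs M k) := by
  have h1 := gs_lower M k (by omega)
  have h0 : (0 : ℝ) ≤ 2 * ((k : ℝ) + 1) / M := by positivity
  exact h1.trans (le_gt (h0.trans h1))

theorem gt_gs_pos {k : ℕ} (hk : k < M - 1) : 0 < gt (gs M k) := by
  have h1 := gt_gs_lower hk
  have hM : (0 : ℝ) < M := by
    have : 0 < M := by omega
    exact_mod_cast this
  have h0 : (0 : ℝ) < 2 * ((k : ℝ) + 1) / M := by positivity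
  exact h0.trans_le h1

theorem gt_gs_le {k : ℕ} (hk : k < M - 1) : gt (gs M k) ≤ 6 := by
  have h1 := gs_lower M k (by omega)
  have h0 : (0 : ℝ) ≤ 2 * ((k : ℝ) + 1) / M := by positivity
  have := gt_le (h0.trans h1) (gs_le_two M k)
  have h2 := gs_le_two M k
  linarith

theorem grho_gt_one {k : ℕ} (hk : k < M - 1) : 1 < grho M k := by
  have := gt_gs_pos hk
  unfold grho
  linarith

/-! ## GRN-K: all edges of the lifted Green function are `≤ 4` (~150 lines) -/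

/-- [`greenD_eq`, `lift_gH_prod` at both points; the difference of the sums termwise: `|sin| ≤ 1`, `lift1_dif_le` + `g1_dif_le` (with `lift1_g1` on `0 ≤ a ≤ M`): each term `≤ 2`; `(2/M)(M-1) 2 ≤ 4`.] -/
theorem gL_edge_vert (w : VD M) (y : ℤ × ℤ) : |gL M w (y.1, y.2 + 1) - gL M w y| ≤ 4 := by
  have hM := two_le_of_VD w
  have hw2 := w.2.isLt
  have hbv : (gpos w).2 = ((w.2 : ℕ) : ℤ) + 1 := rfl
  have hM0 : (0 : ℝ) < M := by
    have : 0 < M := by omega
    exact_mod_cast this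
  unfold gL
  rw [greenD_eq, lift_gH_prod (by omega), lift_gH_prod (by omega), ← mul_sub, ← Finset.sum_sub_distrib, abs_mul,
    abs_of_nonneg (by positivity : (0 : ℝ) ≤ 2 / (M : ℝ))]
  have hterm : ∀ k ∈ Finset.range (M - 1),
      |Real.sin (gth M k * (((y.1, y.2 + 1) : ℤ × ℤ).1 : ℝ)) * Real.sin (gth M k * ((gpos w).1 : ℝ))
        * lift1 M (fun i => g1 (grho M k) M (((i : ℕ) : ℤ) + 1) (gpos w).2) ((y.1, y.2 + 1) : ℤ × ℤ).2
       - Real.sin (gth M k * (y.1 : ℝ)) * Real.sin (gth M k * ((gpos w).1 : ℝ))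
        * lift1 M (fun i => g1 (grho M k) M (((i : ℕ) : ℤ) + 1) (gpos w).2) y.2| ≤ 2 := by
    intro k hk
    have hρ := grho_gt_one (Finset.mem_range.mp hk)
    have hd := lift1_dif_le (fun i => g1 (grho M k) M (((i : ℕ) : ℤ) + 1) (gpos w).2) (c := 2) (by norm_num) (fun a ha haM => by
      rw [lift1_g1 _ (by omega) (by omega) (by omega) (by omega), lift1_g1 _ (by omega) (by omega) (by omega) (by omega)]
      exact g1_dif_le hρ (by omega) ha haM (by omega) (by omega)) y.2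
    have e : Real.sin (gth M k * (((y.1, y.2 + 1) : ℤ × ℤ).1 : ℝ)) * Real.sin (gth M k * ((gpos w).1 : ℝ))
        * lift1 M (fun i => g1 (grho M k) M (((i : ℕ) : ℤ) + 1) (gpos w).2) ((y.1, y.2 + 1) : ℤ × ℤ).2
       - Real.sin (gth M k * (y.1 : ℝ)) * Real.sin (gth M k * ((gpos w).1 : ℝ))
        * lift1 M (fun i => g1 (grho M k) M (((i : ℕ) : ℤ) + 1) (gpos w).2) y.2
        = Real.sin (gth M k * (y.1 : ℝ)) * Real.sin (gth M k * ((gpos w).1 : ℝ))
          * (lift1 M (fun i => g1 (grho M k) M (((i : ℕ) : ℤ) + 1) (gpos w).2) (y.2 + 1)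
            - lift1 M (fun i => g1 (grho M k) M (((i : ℕ) : ℤ) + 1) (gpos w).2) y.2) := by ring
    rw [e, abs_mul, abs_mul]
    have s1 := Real.abs_sin_le_one (gth M k * (y.1 : ℝ))
    have s2 := Real.abs_sin_le_one (gth M k * ((gpos w).1 : ℝ))
    have : |Real.sin (gth M k * (y.1 : ℝ))| * |Real.sin (gth M k * ((gpos w).1 : ℝ))| ≤ 1 := by
      have := mul_le_mul s1 s2 (abs_nonneg _) (by norm_num)
      simpa using this
    calc _ ≤ 1 * 2 := mul_le_mul this hd (abs_nonneg _) (by norm_num)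
      _ = 2 := by norm_num
  have hsum := (Finset.abs_sum_le_sum_abs _ _).trans (Finset.sum_le_sum hterm)
  rw [Finset.sum_const, Finset.card_range, nsmul_eq_mul] at hsum
  have hM1 : ((M - 1 : ℕ) : ℝ) ≤ M := by exact_mod_cast Nat.sub_le M 1
  calc _ ≤ 2 / (M : ℝ) * (((M - 1 : ℕ) : ℝ) * 2) := mul_le_mul_of_nonneg_left hsum (by positivity)
    _ ≤ 2 / (M : ℝ) * ((M : ℝ) * 2) := by
        refine mul_le_mul_of_nonneg_left ?_ (by positivity)
        linarith
    _ = 4 := by field_simp; norm_num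

/-- [`e = 2`: `gL_edge_vert`; `e = 3`: the same at `y + dir 3`; `e = 0, 1`: `gL_swap`.] -/
theorem gL_edge (w : VD M) (e : Fin 4) (y : ℤ × ℤ) : |dif (dir e) (gL M w) y| ≤ 4 := by
  have hv : ∀ (w : VD M) (y : ℤ × ℤ), |gL M w (y + (0, 1)) - gL M w y| ≤ 4 := by
    intro w y
    have := gL_edge_vert w y
    have e : y + ((0 : ℤ), (1 : ℤ)) = (y.1, y.2 + 1) := by ext <;> simp
    rw [e]; exact this
  have hv' : ∀ (w : VD M) (y : ℤ × ℤ), |gL M w (y + (0, -1)) - gL M w y| ≤ 4 := by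
    intro w y
    have := hv w (y + (0, -1))
    have e : y + ((0 : ℤ), (-1 : ℤ)) + (0, 1) = y := by ext <;> simp
    rw [e, abs_sub_comm] at this
    exact this
  unfold dif
  fin_cases e
  · have := hv w.swap y.swap
    rw [← gL_swap w, ← gL_swap w y]
    have e : (y + dir ((fun i => i) ⟨0, by omega⟩)).swap = y.swap + (0, 1) := by
      ext <;> simp [dir]
    rw [e]; exact this
  · have := hv' w.swap y.swap
    rw [← gL_swap w, ← gL_swap w y]
    have e : (y + dir ((fun i => i) ⟨1, by omega⟩)).swap = y.swap + (0, -1) := by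
      ext <;> simp [dir]
    rw [e]; exact this
  · exact hv w y
  · exact hv' w y

/-! ## GRN-L: derivatives (~350 lines) -/

/-- the common part of `der_lo`, `der_hi` -/
theorem grn_fam_bound (f : ℤ × ℤ → ℝ) (x : ℤ × ℤ) (l : List (Fin 4)) (hl : l ≠ []) (d : ℕ) (A B : ℕ → ℝ)
    (hf : ∀ y : ℤ × ℤ, |y.1 - x.1| ≤ l.length → |y.2 - x.2| ≤ l.length →
      f y = 2 / (M : ℝ) * ∑ k ∈ Finset.range (M - 1),
        Real.sin (gth M k * (y.1 : ℝ) + 0) * (A k * grho M k ^ y.2 + B k * grho M k ^ (-y.2)))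
    (hAB : ∀ k < M - 1, |A k| * grho M k ^ x.2 + |B k| * grho M k ^ (-x.2)
      ≤ 2 / (gt (gs M k) * (1 + gt (gs M k)) ^ d)) :
    |dl l f x| ≤ 4 / (M : ℝ) * ∑ k ∈ Finset.range (M - 1), gt (gs M k) ^ (l.length - 1) / (1 + gt (gs M k)) ^ d := by
  rw [dl_congr_local l hf, dl_smul, dl_sum, abs_mul, abs_of_nonneg (by positivity : (0 : ℝ) ≤ 2 / (M : ℝ))]
  have h4 : 4 / (M : ℝ) = 2 / (M : ℝ) * 2 := by ring
  rw [h4, mul_assoc]
  refine mul_le_mul_of_nonneg_left ?_ (by positivity)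
  refine (Finset.abs_sum_le_sum_abs _ _).trans ?_
  rw [Finset.mul_sum]
  refine Finset.sum_le_sum fun k hk => ?_
  have hk' : k < M - 1 := Finset.mem_range.mp hk
  have ht := gt_gs_pos hk'
  have hs0 : 0 ≤ gs M k := by
    have h1 := gs_lower M k (by omega)
    have h0 : (0 : ℝ) ≤ 2 * ((k : ℝ) + 1) / M := by positivity
    exact h0.trans h1
  have h1 : |2 * Real.sin (gth M k / 2)| ≤ gt (gs M k) := by
    have : 2 * Real.sin (gth M k / 2) = gs M k := rfl
    rw [this, abs_of_nonneg hs0]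
    exact le_gt hs0
  have h2 : grho M k - 1 ≤ gt (gs M k) := by unfold grho; linarith
  refine (dl_family (grho_gt_one hk').le h1 h2 l 0 (A k) (B k) x).trans ?_
  refine (mul_le_mul_of_nonneg_left (hAB k hk') (by positivity)).trans (le_of_eq ?_)
  obtain ⟨r, hr⟩ : ∃ r, l.length = r + 1 := by
    cases l with
    | nil => exact absurd rfl hl
    | cons a t => exact ⟨t.length, rfl⟩
  rw [hr, Nat.add_sub_cancel, pow_succ]
  field_simp

/-- the pole is ABOVE.  [`dl_congr_local` + `gL_eq_gU` + `g1_of_le`: near `gpos v` the function is `(2/M) ∑_k sin (θ_k y₁) (c_k ρ_k^{y₂} - c_k ρ_k^{-y₂})`, `c_k = sin (θ_k w₁) sh (M - w₂)/(sh 1 sh M)`;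
`dl_smul`, `dl_sum`, `dl_family` with `φ = 0`, `κ = t_k = gt (gs M k)` (`le_gt`), `g1_coef`; `t^r · 2 ρ^{a-b}/t = 2 t^{r-1}/ρ^d`.] -/
theorem der_lo (v w : VD M) (l : List (Fin 4)) (hl : l ≠ []) (d : ℕ) (hd : (v.2 : ℕ) + d = (w.2 : ℕ)) (hld : l.length ≤ d) :
    |dl l (gL M w) (gpos v)|
      ≤ 4 / (M : ℝ) * ∑ k ∈ Finset.range (M - 1), gt (gs M k) ^ (l.length - 1) / (1 + gt (gs M k)) ^ d := by
  have hM := two_le_of_VD v
  have hw2 := w.2.isLt
  set b : ℤ := (gpos w).2 with hb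
  have hbv : b = ((w.2 : ℕ) : ℤ) + 1 := rfl
  have hav : (gpos v).2 = ((v.2 : ℕ) : ℤ) + 1 := rfl
  refine grn_fam_bound (gL M w) (gpos v) l hl d
    (fun k => Real.sin (gth M k * ((gpos w).1 : ℝ)) * (sh (grho M k) ((M : ℤ) - b) / (sh (grho M k) 1 * sh (grho M k) M)))
    (fun k => - (Real.sin (gth M k * ((gpos w).1 : ℝ)) * (sh (grho M k) ((M : ℤ) - b) / (sh (grho M k) 1 * sh (grho M k) M))))
    ?_ ?_
  · intro y _ hy2
    rw [abs_le] at hy2
    have hyb : y.2 ≤ b := by omega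
    rw [gL_eq_gU w y (by omega) (by omega)]
    unfold gU
    congr 1
    refine Finset.sum_congr rfl fun k _ => ?_
    rw [← hb, g1_of_le _ _ hyb, add_zero]
    unfold sh
    ring
  · intro k hk
    have hρ := grho_gt_one hk
    have ht := gt_gs_pos hk
    have hc := g1_coef hρ (by omega : 1 ≤ M) (a := (gpos v).2) (b := b) (by omega) (by omega) (by omega)
    rw [abs_neg, ← mul_add, abs_mul]
    have hsin : |Real.sin (gth M k * ((gpos w).1 : ℝ))| ≤ 1 := Real.abs_sin_le_one _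
    have hpos : 0 ≤ |sh (grho M k) ((M : ℤ) - b) / (sh (grho M k) 1 * sh (grho M k) M)|
        * (grho M k ^ (gpos v).2 + grho M k ^ (-(gpos v).2)) := by
      have : 0 < grho M k := by linarith
      positivity
    calc _ = |Real.sin (gth M k * ((gpos w).1 : ℝ))| * (|sh (grho M k) ((M : ℤ) - b) / (sh (grho M k) 1 * sh (grho M k) M)|
        * (grho M k ^ (gpos v).2 + grho M k ^ (-(gpos v).2))) := by ring
      _ ≤ 1 * (|sh (grho M k) ((M : ℤ) - b) / (sh (grho M k) 1 * sh (grho M k) M)|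
        * (grho M k ^ (gpos v).2 + grho M k ^ (-(gpos v).2))) := mul_le_mul_of_nonneg_right hsin hpos
      _ ≤ 2 * grho M k ^ ((gpos v).2 - b) / (grho M k - 1) := by rw [one_mul]; exact hc
      _ = 2 / (gt (gs M k) * (1 + gt (gs M k)) ^ d) := by
        have h1 : (gpos v).2 - b = -(d : ℤ) := by omega
        have h2 : grho M k - 1 = gt (gs M k) := by unfold grho; ring
        rw [h1, h2, zpow_neg, zpow_natCast]
        unfold grho
        field_simp

/-- the pole is BELOW.  [the same with `g1_of_ge`: `sh (M - y₂) = ρ^M ρ^{-y₂} - ρ^{-M} ρ^{y₂}`, `g1_coef` with `M - a`, `M - b`.] -/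
theorem der_hi (v w : VD M) (l : List (Fin 4)) (hl : l ≠ []) (d : ℕ) (hd : (w.2 : ℕ) + d = (v.2 : ℕ)) (hld : l.length ≤ d) :
    |dl l (gL M w) (gpos v)|
      ≤ 4 / (M : ℝ) * ∑ k ∈ Finset.range (M - 1), gt (gs M k) ^ (l.length - 1) / (1 + gt (gs M k)) ^ d := by
  have hM := two_le_of_VD v
  have hw2 := w.2.isLt
  have hv2 := v.2.isLt
  set b : ℤ := (gpos w).2 with hb
  have hbv : b = ((w.2 : ℕ) : ℤ) + 1 := rfl
  have hav : (gpos v).2 = ((v.2 : ℕ) : ℤ) + 1 := rfl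
  refine grn_fam_bound (gL M w) (gpos v) l hl d
    (fun k => - (Real.sin (gth M k * ((gpos w).1 : ℝ)) * (sh (grho M k) b / (sh (grho M k) 1 * sh (grho M k) M))) * grho M k ^ (-(M : ℤ)))
    (fun k => (Real.sin (gth M k * ((gpos w).1 : ℝ)) * (sh (grho M k) b / (sh (grho M k) 1 * sh (grho M k) M))) * grho M k ^ (M : ℤ))
    ?_ ?_
  · intro y _ hy2
    rw [abs_le] at hy2
    have hyb : b ≤ y.2 := by omega
    rw [gL_eq_gU w y (by omega) (by omega)]
    unfold gU
    congr 1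
    refine Finset.sum_congr rfl fun k hk => ?_
    have hρ := grho_gt_one (Finset.mem_range.mp hk)
    have hρ0 : grho M k ≠ 0 := by linarith
    rw [← hb, g1_of_ge _ _ hyb, add_zero]
    have h1 : sh (grho M k) ((M : ℤ) - y.2) = grho M k ^ (M : ℤ) * grho M k ^ (-y.2) - grho M k ^ (-(M : ℤ)) * grho M k ^ y.2 := by
      unfold sh
      rw [← zpow_add₀ hρ0, ← zpow_add₀ hρ0]
      congr 2 <;> ring
    rw [h1]
    ring
  · intro k hk
    have hρ := grho_gt_one hk
    have hρ0 : grho M k ≠ 0 := by linarith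
    have hρp : 0 < grho M k := by linarith
    have ht := gt_gs_pos hk
    have hc := g1_coef hρ (by omega : 1 ≤ M) (a := (M : ℤ) - (gpos v).2) (b := (M : ℤ) - b) (by omega) (by omega) (by omega)
    rw [sub_sub_cancel] at hc
    have hsin : |Real.sin (gth M k * ((gpos w).1 : ℝ))| ≤ 1 := Real.abs_sin_le_one _
    have hpos : 0 ≤ |sh (grho M k) b / (sh (grho M k) 1 * sh (grho M k) M)|
        * (grho M k ^ ((M : ℤ) - (gpos v).2) + grho M k ^ (-((M : ℤ) - (gpos v).2))) := by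
      positivity
    have e1 : grho M k ^ ((M : ℤ) - (gpos v).2) = grho M k ^ (M : ℤ) * grho M k ^ (-(gpos v).2) := by
      rw [← zpow_add₀ hρ0]; congr 1
    have e2 : grho M k ^ (-((M : ℤ) - (gpos v).2)) = grho M k ^ (-(M : ℤ)) * grho M k ^ (gpos v).2 := by
      rw [← zpow_add₀ hρ0]; congr 1; ring
    calc _ = |Real.sin (gth M k * ((gpos w).1 : ℝ))| * (|sh (grho M k) b / (sh (grho M k) 1 * sh (grho M k) M)|
        * (grho M k ^ ((M : ℤ) - (gpos v).2) + grho M k ^ (-((M : ℤ) - (gpos v).2)))) := by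
          rw [e1, e2, abs_mul, abs_mul, abs_neg, abs_mul, abs_of_pos (zpow_pos hρp _), abs_of_pos (zpow_pos hρp _)]
          ring
      _ ≤ 1 * (|sh (grho M k) b / (sh (grho M k) 1 * sh (grho M k) M)|
        * (grho M k ^ ((M : ℤ) - (gpos v).2) + grho M k ^ (-((M : ℤ) - (gpos v).2)))) := mul_le_mul_of_nonneg_right hsin hpos
      _ ≤ 2 * grho M k ^ ((M : ℤ) - (gpos v).2 - ((M : ℤ) - b)) / (grho M k - 1) := by rw [one_mul]; exact hc
      _ = 2 / (gt (gs M k) * (1 + gt (gs M k)) ^ d) := by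
        have h1 : (M : ℤ) - (gpos v).2 - ((M : ℤ) - b) = -(d : ℤ) := by omega
        have h2 : grho M k - 1 = gt (gs M k) := by unfold grho; ring
        rw [h1, h2, zpow_neg, zpow_natCast]
        unfold grho
        field_simp

/-- [`der_lo`/`der_hi` + `sum_der` if `l.length ≤ d`; otherwise `dl_abs_le_edge` + `gL_edge`: `2^{r-1} · 4 ≤ (16 (r+1))^r/(1+d)^r` as `1 + d ≤ r`.] -/
theorem der_vert (v w : VD M) (l : List (Fin 4)) (hl : l ≠ []) :
    |dl l (gL M w) (gpos v)|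
      ≤ (16 * ((l.length : ℝ) + 1)) ^ l.length / (1 + ((((v.2 : ℕ) : ℤ) - ((w.2 : ℕ) : ℤ)).natAbs : ℝ)) ^ l.length := by
  have hM := two_le_of_VD v
  set d : ℕ := (((v.2 : ℕ) : ℤ) - ((w.2 : ℕ) : ℤ)).natAbs with hd
  have hr : 1 ≤ l.length := by
    cases l with
    | nil => exact absurd rfl hl
    | cons a t => simp
  by_cases hld : l.length ≤ d
  · have hsum := sum_der M (by omega) (fun k => gt (gs M k)) (fun k hk => gt_gs_lower hk) (fun k hk => gt_gs_le hk)
      l.length d hr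
    rcases le_total (v.2 : ℕ) (w.2 : ℕ) with h | h
    · exact (der_lo v w l hl d (by omega) hld).trans hsum
    · exact (der_hi v w l hl d (by omega) hld).trans hsum
  · push Not at hld
    refine (dl_abs_le_edge l hl (gL_edge w) (gpos v)).trans ?_
    rw [le_div_iff₀ (by positivity), mul_pow]
    have h1 : (1 + (d : ℝ)) ^ l.length ≤ ((l.length : ℝ) + 1) ^ l.length := by
      refine pow_le_pow_left₀ (by positivity) ?_ _
      have : (d : ℝ) ≤ l.length := by exact_mod_cast hld.le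
      linarith
    have h2 : (2 : ℝ) ^ (l.length - 1) * 4 ≤ 16 ^ l.length := by
      obtain ⟨r, hr'⟩ : ∃ r, l.length = r + 1 := ⟨l.length - 1, by omega⟩
      rw [hr', Nat.add_sub_cancel, pow_succ]
      have : (2 : ℝ) ^ r ≤ 16 ^ r := pow_le_pow_left₀ (by norm_num) (by norm_num) r
      have h0 : (0 : ℝ) < 2 ^ r := by positivity
      linarith
    exact mul_le_mul h2 h1 (by positivity) (by positivity)

theorem gpos_swap (v : VD M) : gpos v.swap = (gpos v).swap := rfl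

/-- [`distD` is the max; if it is attained in the first coordinate: `gL_swap`, `dl_swap`, `der_vert` for `v.swap`, `w.swap`, `l.map sdir`.] -/
theorem der_main (v w : VD M) (l : List (Fin 4)) (hl : l ≠ []) :
    |dl l (gL M w) (gpos v)| ≤ (16 * ((l.length : ℝ) + 1)) ^ l.length / (1 + (distD v w : ℝ)) ^ l.length := by
  unfold distD
  rcases le_total (((v.1 : ℕ) : ℤ) - ((w.1 : ℕ) : ℤ)).natAbs (((v.2 : ℕ) : ℤ) - ((w.2 : ℕ) : ℤ)).natAbs with h | h
  · rw [max_eq_right h]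
    exact der_vert v w l hl
  · rw [max_eq_left h]
    have h1 : gL M w = fun y => gL M w.swap y.swap := by
      funext y
      exact (gL_swap w y).symm
    have h2 := der_vert v.swap w.swap (l.map sdir) (by simpa using hl)
    rw [List.length_map] at h2
    rw [h1, dl_swap, ← gpos_swap]
    exact h2

/-! ## GRN-M: the value (~120 lines) -/

/-- [`greenD_eq`, `gH`, `gU`: `|sin| ≤ 1`, `g1_abs_le`, `sum_val`.] -/
theorem val_vert (v w : VD M) :
    greenD M v w ≤ 3 * (1 + Real.posLog ((M : ℝ) / (1 + ((((v.2 : ℕ) : ℤ) - ((w.2 : ℕ) : ℤ)).natAbs : ℝ)))) := by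
  have hM := two_le_of_VD w
  have hw2 := w.2.isLt
  have hv2 := v.2.isLt
  have hbv : (gpos w).2 = ((w.2 : ℕ) : ℤ) + 1 := rfl
  have hav : (gpos v).2 = ((v.2 : ℕ) : ℤ) + 1 := rfl
  set d : ℕ := (((v.2 : ℕ) : ℤ) - ((w.2 : ℕ) : ℤ)).natAbs with hd
  refine le_trans ?_ (sum_val M hM (fun k => gt (gs M k)) (fun k hk => gt_gs_lower hk) d (by omega))
  rw [greenD_eq]
  unfold gH gU
  refine mul_le_mul_of_nonneg_left ?_ (by positivity)
  refine Finset.sum_le_sum fun k hk => ?_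
  have hρ := grho_gt_one (Finset.mem_range.mp hk)
  have hg := g1_abs_le hρ (by omega : 1 ≤ M) (a := (gpos v).2) (b := (gpos w).2) (by omega) (by omega) (by omega) (by omega)
  have e1 : ((gpos v).2 - (gpos w).2).natAbs = d := by
    rw [hd, hav, hbv]; congr 1; ring
  have e2 : grho M k - 1 = gt (gs M k) := by unfold grho; ring
  rw [e1, e2] at hg
  refine (le_abs_self _).trans ?_
  rw [abs_mul, abs_mul]
  have s1 := Real.abs_sin_le_one (gth M k * ((gpos v).1 : ℝ))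
  have s2 := Real.abs_sin_le_one (gth M k * ((gpos w).1 : ℝ))
  have : |Real.sin (gth M k * ((gpos v).1 : ℝ))| * |Real.sin (gth M k * ((gpos w).1 : ℝ))| ≤ 1 := by
    have := mul_le_mul s1 s2 (abs_nonneg _) (by norm_num)
    simpa using this
  calc _ ≤ 1 * (1 / (gt (gs M k) * grho M k ^ d)) := mul_le_mul this hg (abs_nonneg _) (by norm_num)
    _ = 1 / (gt (gs M k) * (1 + gt (gs M k)) ^ d) := by rw [one_mul]; rfl

theorem val_main (v w : VD M) : greenD M v w ≤ 3 * (1 + Real.posLog ((M : ℝ) / (1 + (distD v w : ℝ)))) := by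
  unfold distD
  rcases le_total (((v.1 : ℕ) : ℤ) - ((w.1 : ℕ) : ℤ)).natAbs (((v.2 : ℕ) : ℤ) - ((w.2 : ℕ) : ℤ)).natAbs with h | h
  · rw [max_eq_right h]
    exact val_vert v w
  · rw [max_eq_left h, ← greenD_swap]
    exact val_vert v.swap w.swap

/-! ## GRN-N: comparison of two squares (~300 lines) -/

theorem exists_gpos (p : ℤ × ℤ) (h1 : 0 < p.1) (h2 : p.1 < M) (h3 : 0 < p.2) (h4 : p.2 < M) :
    ∃ v : VD M, gpos v = p := by
  refine ⟨(⟨(p.1 - 1).toNat, by omega⟩, ⟨(p.2 - 1).toNat, by omega⟩), ?_⟩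
  unfold gpos
  ext <;> simp <;> omega

theorem gpos_inj {v w : VD M} (h : gpos v = gpos w) : v = w := by
  unfold gpos at h
  have h1 := congrArg Prod.fst h
  have h2 := congrArg Prod.snd h
  simp only at h1 h2
  ext <;> omega

theorem grn_dl_zero (l : List (Fin 4)) (x : ℤ × ℤ) : dl l (fun _ => (0 : ℝ)) x = 0 := by
  have := dl_smul l 0 (fun _ => (0 : ℝ)) x
  simpa using this

theorem grn_pow_aux (r : ℕ) (hr : 1 ≤ r) : (2 : ℝ) ^ (r - 1) * 4 ≤ 16 ^ r := by
  obtain ⟨q, rfl⟩ : ∃ q, r = q + 1 := ⟨r - 1, by omega⟩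
  rw [Nat.add_sub_cancel, pow_succ]
  have : (2 : ℝ) ^ q ≤ 16 ^ q := pow_le_pow_left₀ (by norm_num) (by norm_num) q
  have h0 : (0 : ℝ) < 2 ^ q := by positivity
  linarith

/-- the difference of the two centred lifted Green functions is harmonic in the smaller square -/
theorem grn_cmp_harm (n n2 : ℕ) (hnn : n ≤ n2) (c : VD (2 * n)) (c2 : VD (2 * n2))
    (hc : gpos c = ((n : ℤ), (n : ℤ))) (hc2 : gpos c2 = ((n2 : ℤ), (n2 : ℤ))) (y : ℤ × ℤ) (h1 : |y.1| < n) (h2 : |y.2| < n) :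
    lapZ (fun y => gL (2 * n) c (y + ((n : ℤ), (n : ℤ))) - gL (2 * n2) c2 (y + ((n2 : ℤ), (n2 : ℤ)))) y = 0 := by
  rw [abs_lt] at h1 h2
  obtain ⟨v, hv⟩ := exists_gpos (M := 2 * n) (y + ((n : ℤ), (n : ℤ))) (by simp; omega) (by simp; omega) (by simp; omega) (by simp; omega)
  obtain ⟨v2, hv2⟩ := exists_gpos (M := 2 * n2) (y + ((n2 : ℤ), (n2 : ℤ))) (by simp; omega) (by simp; omega) (by simp; omega) (by simp; omega)
  have e : lapZ (fun y => gL (2 * n) c (y + ((n : ℤ), (n : ℤ))) - gL (2 * n2) c2 (y + ((n2 : ℤ), (n2 : ℤ)))) y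
      = lapZ (gL (2 * n) c) (y + ((n : ℤ), (n : ℤ))) - lapZ (gL (2 * n2) c2) (y + ((n2 : ℤ), (n2 : ℤ))) := by
    unfold lapZ dif
    rw [← Finset.sum_sub_distrib]
    refine Finset.sum_congr rfl fun e _ => ?_
    beta_reduce
    rw [add_right_comm y (dir e), add_right_comm y (dir e)]
    ring
  rw [e, ← hv, ← hv2, lapZ_gL, lapZ_gL]
  have i1 : v = c ↔ y = 0 := by
    constructor
    · intro h
      rw [h, hc] at hv
      exact (right_eq_add.mp hv)
    · intro h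
      apply gpos_inj
      rw [hv, hc, h, zero_add]
  have i2 : v2 = c2 ↔ y = 0 := by
    constructor
    · intro h
      rw [h, hc2] at hv2
      exact (right_eq_add.mp hv2)
    · intro h
      apply gpos_inj
      rw [hv2, hc2, h, zero_add]
  simp only [i1, i2, sub_self]

/-- derivative bound in centred coordinates -/
theorem grn_cmp_der (n : ℕ) (c : VD (2 * n)) (hc : gpos c = ((n : ℤ), (n : ℤ))) (l : List (Fin 4)) (hl : l ≠ []) (R : ℕ) (hR : R < n)
    (y : ℤ × ℤ) (h1 : |y.1| ≤ R) (h2 : |y.2| ≤ R) (h3 : |y.1| = R ∨ |y.2| = R) :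
    |dl l (gL (2 * n) c) (y + ((n : ℤ), (n : ℤ)))| ≤ (16 * ((l.length : ℝ) + 1)) ^ l.length / (1 + (R : ℝ)) ^ l.length := by
  have h1' := abs_le.mp h1
  have h2' := abs_le.mp h2
  obtain ⟨v, hv⟩ := exists_gpos (M := 2 * n) (y + ((n : ℤ), (n : ℤ))) (by simp; omega) (by simp; omega) (by simp; omega) (by simp; omega)
  have hd : distD v c = R := by
    unfold distD
    unfold gpos at hv hc
    have a1 := congrArg Prod.fst hv
    have a2 := congrArg Prod.snd hv
    have b1 := congrArg Prod.fst hc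
    have b2 := congrArg Prod.snd hc
    simp only [Prod.fst_add, Prod.snd_add] at a1 a2 b1 b2
    have e1 : ((v.1 : ℕ) : ℤ) - ((c.1 : ℕ) : ℤ) = y.1 := by omega
    have e2 : ((v.2 : ℕ) : ℤ) - ((c.2 : ℕ) : ℤ) = y.2 := by omega
    rw [e1, e2]
    rw [Int.abs_eq_natAbs] at h1 h2 h3
    rw [Int.abs_eq_natAbs] at h3
    rcases h3 with h3 | h3
    · rw [max_eq_left (by omega)]; omega
    · rw [max_eq_right (by omega)]; omega
  have := der_main v c l hl
  rw [hv, hd] at this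
  exact this

/-- [`D y = gL (2n) c (y + (n,n)) - gL (2 n2) c2 (y + (n2,n2))`, `r = l.length`.  `n ≤ 2 r`: `dl_sub`, `dl_shift`, `dl_abs_le_edge`, `gL_edge`: `≤ 2 · 2^{r+1}`.
`2 r < n`: `R = n / 2`, `R + r < n`.  `lapZ D y = 0` for `|y|_∞ < n` (`lapZ_gL` at `v` with `gpos v = y + (n,n)`, both squares; the two indicator terms cancel: `v = c ↔ y = 0 ↔ v2 = c2`).
`lapZ (dl l D) y = dl l (lapZ D) y = 0` for `|y|_∞ < R` (`dl_lapZ`, `dl_congr_local` against the zero function).  `box_max R`; on the boundary `dl_sub`, `dl_shift`, `der_main` twice with `distD = R`, `1 + R ≥ n/2`.] -/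
theorem compare_main (n n2 : ℕ) (hn : 1 ≤ n) (hnn : n ≤ n2) (c : VD (2 * n)) (c2 : VD (2 * n2))
    (hc : gpos c = ((n : ℤ), (n : ℤ))) (hc2 : gpos c2 = ((n2 : ℤ), (n2 : ℤ)))
    (l : List (Fin 4)) (hl : l ≠ []) (x : ℤ × ℤ) (hx1 : 2 * |x.1| ≤ n) (hx2 : 2 * |x.2| ≤ n) :
    |dl l (fun y => gL (2 * n) c (y + ((n : ℤ), (n : ℤ))) - gL (2 * n2) c2 (y + ((n2 : ℤ), (n2 : ℤ)))) x|
      ≤ 2 * (32 * ((l.length : ℝ) + 1)) ^ l.length / (n : ℝ) ^ l.length := by
  have hr : 1 ≤ l.length := by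
    cases l with
    | nil => exact absurd rfl hl
    | cons a t => simp
  have hn0 : (0 : ℝ) < n := by exact_mod_cast hn
  have hsplit : ∀ y : ℤ × ℤ, dl l (fun y => gL (2 * n) c (y + ((n : ℤ), (n : ℤ))) - gL (2 * n2) c2 (y + ((n2 : ℤ), (n2 : ℤ)))) y
      = dl l (gL (2 * n) c) (y + ((n : ℤ), (n : ℤ))) - dl l (gL (2 * n2) c2) (y + ((n2 : ℤ), (n2 : ℤ))) := by
    intro y
    rw [dl_sub, dl_shift, dl_shift]
  by_cases hnr : n ≤ 2 * l.length
  · rw [hsplit]
    have e1 := dl_abs_le_edge l hl (gL_edge c) (x + ((n : ℤ), (n : ℤ)))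
    have e2 := dl_abs_le_edge l hl (gL_edge c2) (x + ((n2 : ℤ), (n2 : ℤ)))
    have e3 := abs_sub (dl l (gL (2 * n) c) (x + ((n : ℤ), (n : ℤ)))) (dl l (gL (2 * n2) c2) (x + ((n2 : ℤ), (n2 : ℤ))))
    have key : (2 : ℝ) ^ (l.length - 1) * 4 ≤ (32 * ((l.length : ℝ) + 1)) ^ l.length / (n : ℝ) ^ l.length := by
      rw [le_div_iff₀ (by positivity)]
      have a1 : (32 * ((l.length : ℝ) + 1)) ^ l.length = 16 ^ l.length * (2 * ((l.length : ℝ) + 1)) ^ l.length := by
        rw [← mul_pow]; congr 1; ring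
      rw [a1]
      refine mul_le_mul (grn_pow_aux _ hr) ?_ (by positivity) (by positivity)
      refine pow_le_pow_left₀ hn0.le ?_ _
      have : (n : ℝ) ≤ 2 * l.length := by exact_mod_cast hnr
      linarith
    have : 2 * (32 * ((l.length : ℝ) + 1)) ^ l.length / (n : ℝ) ^ l.length
        = 2 * ((32 * ((l.length : ℝ) + 1)) ^ l.length / (n : ℝ) ^ l.length) := by ring
    rw [this]
    linarith
  · push Not at hnr
    obtain ⟨R, hR1, hR2⟩ : ∃ R : ℕ, 2 * R ≤ n ∧ n < 2 * R + 2 := ⟨n / 2, by omega, by omega⟩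
    refine box_max R (K := 2 * (32 * ((l.length : ℝ) + 1)) ^ l.length / (n : ℝ) ^ l.length) ?_ ?_ x (by omega) (by omega)
    · intro y h1 h2
      rw [dl_lapZ]
      rw [abs_lt] at h1 h2
      rw [dl_congr_local l (g := fun _ => (0 : ℝ)), grn_dl_zero]
      intro z hz1 hz2
      rw [abs_le] at hz1 hz2
      exact grn_cmp_harm n n2 hnn c c2 hc hc2 z (by rw [abs_lt]; omega) (by rw [abs_lt]; omega)
    · intro y h1 h2 h3
      rw [hsplit]
      have e1 := grn_cmp_der n c hc l hl R (by omega) y h1 h2 h3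
      have e2 := grn_cmp_der n2 c2 hc2 l hl R (by omega) y h1 h2 h3
      have e3 := abs_sub (dl l (gL (2 * n) c) (y + ((n : ℤ), (n : ℤ)))) (dl l (gL (2 * n2) c2) (y + ((n2 : ℤ), (n2 : ℤ))))
      have key : (16 * ((l.length : ℝ) + 1)) ^ l.length / (1 + (R : ℝ)) ^ l.length
          ≤ (32 * ((l.length : ℝ) + 1)) ^ l.length / (n : ℝ) ^ l.length := by
        rw [div_le_div_iff₀ (by positivity) (by positivity)]
        have a1 : (32 * ((l.length : ℝ) + 1)) ^ l.length = (16 * ((l.length : ℝ) + 1)) ^ l.length * 2 ^ l.length := by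
          rw [← mul_pow]; congr 1; ring
        rw [a1, mul_assoc, ← mul_pow 2]
        have hp : (0 : ℝ) ≤ (16 * ((l.length : ℝ) + 1)) ^ l.length := by positivity
        refine mul_le_mul_of_nonneg_left ?_ hp
        refine pow_le_pow_left₀ hn0.le ?_ _
        have : (n : ℝ) ≤ 2 * R + 2 := by exact_mod_cast hR2.le
        linarith
      have : 2 * (32 * ((l.length : ℝ) + 1)) ^ l.length / (n : ℝ) ^ l.length
          = 2 * ((32 * ((l.length : ℝ) + 1)) ^ l.length / (n : ℝ) ^ l.length) := by ring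
      rw [this]
      linarith

/-! ## EXPORTS -/

theorem ofFn_ne_nil {r : ℕ} (hr : 1 ≤ r) (a : Fin r → Fin 4) : List.ofFn a ≠ [] := by
  intro h
  have := congrArg List.length h
  simp at this
  omega

/-- = `B4.green_bounds` -/
theorem green_bounds : ∃ C : ℝ, ∀ (M : ℕ), 2 ≤ M → ∀ v w : VD M,
    0 ≤ greenD M v w ∧ greenD M v w ≤ C * (1 + Real.posLog ((M : ℝ) / (1 + distD v w))) ∧
    ∀ r : ℕ, 1 ≤ r → r ≤ 6 → ∀ a : Fin r → Fin 4,
      |difs a (liftD M fun v' => greenD M v' w) (((v.1 : ℕ) : ℤ) + 1, ((v.2 : ℕ) : ℤ) + 1)|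
        ≤ C * ((1 + (distD v w : ℝ)) ^ r)⁻¹ := by
  refine ⟨(16 * 7) ^ 6, fun M _ v w => ⟨greenD_nonneg v w, ?_, ?_⟩⟩
  · refine (val_main v w).trans ?_
    have : 0 ≤ Real.posLog ((M : ℝ) / (1 + distD v w)) := Real.posLog_nonneg
    nlinarith
  · intro r hr hr6 a
    have h := der_main v w (List.ofFn a) (ofFn_ne_nil hr a)
    rw [List.length_ofFn] at h
    rw [difs_eq_dl]
    refine h.trans ?_
    rw [div_eq_mul_inv]
    refine mul_le_mul_of_nonneg_right ?_ (by positivity)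
    have hr6' : (r : ℝ) ≤ 6 := by exact_mod_cast hr6
    calc (16 * ((r : ℝ) + 1)) ^ r ≤ (16 * 7 : ℝ) ^ r := by
          refine pow_le_pow_left₀ (by positivity) (by linarith) r
      _ ≤ (16 * 7 : ℝ) ^ 6 := pow_le_pow_right₀ (by norm_num) hr6

/-- = `B4.green_compare` -/
theorem green_compare : ∃ C c0 : ℝ, 0 < c0 ∧ ∀ n n2 : ℕ, 1 ≤ n → n ≤ n2 → ∀ (c : VD (2 * n)) (c2 : VD (2 * n2)),
    (c.1 : ℕ) + 1 = n → (c.2 : ℕ) + 1 = n → (c2.1 : ℕ) + 1 = n2 → (c2.2 : ℕ) + 1 = n2 →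
    ∀ r : ℕ, 1 ≤ r → r ≤ 5 → ∀ (a : Fin r → Fin 4) (x : ℤ × ℤ), (max |x.1| |x.2| : ℝ) ≤ c0 * n →
      |difs a (fun y => liftD (2 * n) (fun v => greenD (2 * n) v c) (y + ((n : ℤ), (n : ℤ)))
          - liftD (2 * n2) (fun v => greenD (2 * n2) v c2) (y + ((n2 : ℤ), (n2 : ℤ)))) x| ≤ C * ((n : ℝ) ^ r)⁻¹ := by
  refine ⟨2 * (32 * 6) ^ 5, 1 / 2, by norm_num, ?_⟩
  intro n n2 hn hnn c c2 h1 h2 h3 h4 r hr hr5 a x hx
  have hc : gpos c = ((n : ℤ), (n : ℤ)) := by
    unfold gpos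
    ext <;> simp <;> omega
  have hc2 : gpos c2 = ((n2 : ℤ), (n2 : ℤ)) := by
    unfold gpos
    ext <;> simp <;> omega
  have hx1 : 2 * |x.1| ≤ n := by
    have : ((|x.1| : ℤ) : ℝ) ≤ 1 / 2 * n := by
      push_cast
      exact (le_max_left _ _).trans hx
    have h' : ((2 * |x.1| : ℤ) : ℝ) ≤ ((n : ℤ) : ℝ) := by
      push_cast at this ⊢
      linarith
    exact_mod_cast h'
  have hx2 : 2 * |x.2| ≤ n := by
    have : ((|x.2| : ℤ) : ℝ) ≤ 1 / 2 * n := by
      push_cast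
      exact (le_max_right _ _).trans hx
    have h' : ((2 * |x.2| : ℤ) : ℝ) ≤ ((n : ℤ) : ℝ) := by
      push_cast at this ⊢
      linarith
    exact_mod_cast h'
  have h := compare_main n n2 hn hnn c c2 hc hc2 (List.ofFn a) (ofFn_ne_nil hr a) x hx1 hx2
  rw [List.length_ofFn] at h
  rw [difs_eq_dl]
  refine h.trans ?_
  rw [div_eq_mul_inv]
  refine mul_le_mul_of_nonneg_right ?_ (by positivity)
  have hr5' : (r : ℝ) ≤ 5 := by exact_mod_cast hr5
  have : (32 * ((r : ℝ) + 1)) ^ r ≤ (32 * 6 : ℝ) ^ 5 :=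
    calc (32 * ((r : ℝ) + 1)) ^ r ≤ (32 * 6 : ℝ) ^ r := by
          refine pow_le_pow_left₀ (by positivity) (by linarith) r
      _ ≤ (32 * 6 : ℝ) ^ 5 := pow_le_pow_right₀ (by norm_num) hr5
  linarith

/-- = `B6a.green_high` -/
theorem green_high : ∃ C C0 : ℝ, ∀ (M : ℕ) (j : ℕ), 1 ≤ j → ∀ (a : Fin j → Fin 4) (x y : VD M),
    |difs a (fun x' => liftD M (fun v => greenD M v y) x') (((x.1 : ℕ) : ℤ) + 1, ((x.2 : ℕ) : ℤ) + 1)|
      ≤ C * Real.exp (C0 * j ^ 2) * (1 + (distD x y : ℝ)) ^ (-(j : ℤ)) := by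
  refine ⟨1, 32, ?_⟩
  intro M j hj a x y
  have h := der_main x y (List.ofFn a) (ofFn_ne_nil hj a)
  rw [List.length_ofFn] at h
  rw [difs_eq_dl]
  refine h.trans ?_
  rw [div_eq_mul_inv, zpow_neg, zpow_natCast, one_mul]
  refine mul_le_mul_of_nonneg_right ?_ (by positivity)
  have hj' : (1 : ℝ) ≤ j := by exact_mod_cast hj
  have h1 : 16 * ((j : ℝ) + 1) ≤ Real.exp (32 * j) := by
    have := Real.add_one_le_exp (32 * (j : ℝ))
    linarith
  calc (16 * ((j : ℝ) + 1)) ^ j ≤ (Real.exp (32 * j)) ^ j := pow_le_pow_left₀ (by positivity) h1 j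
    _ = Real.exp (32 * (j : ℝ) ^ 2) := by
        rw [← Real.exp_nat_mul]
        congr 1
        ring

/-! ## EXTRA API (NEED of helper251) -/

/-- the killed Poisson equation of the odd lift, written out -/
theorem gL_poisson (v w : VD M) :
    4 * gL M w (gpos v) - gL M w (gpos v + (1, 0)) - gL M w (gpos v - (1, 0)) - gL M w (gpos v + (0, 1))
      - gL M w (gpos v - (0, 1)) = if v = w then 1 else 0 := by
  have h := lapZ_gL v w
  unfold lapZ dif at h
  rw [Fin.sum_univ_four] at h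
  have d0 : dir 0 = (1, 0) := rfl
  have d1 : gpos v + dir 1 = gpos v - (1, 0) := by ext <;> simp [dir, sub_eq_add_neg]
  have d2 : dir 2 = (0, 1) := rfl
  have d3 : gpos v + dir 3 = gpos v - (0, 1) := by ext <;> simp [dir, sub_eq_add_neg]
  rw [d0, d1, d2, d3] at h
  linarith

/-- the lift vanishes on the four boundary lines -/
theorem gL_bdry (w : VD M) (x : ℤ × ℤ) (h : x.1 = 0 ∨ x.1 = M ∨ x.2 = 0 ∨ x.2 = M) : gL M w x = 0 :=
  liftD_bdry _ x h

theorem gL_gpos (v w : VD M) : gL M w (gpos v) = greenD M v w := liftD_gpos _ v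

theorem isUnit_det_lapD (M : ℕ) : IsUnit (lapD M).det :=
  (Matrix.isUnit_iff_isUnit_det _).mp (IsUnit.of_mul_eq_one _ (lapD_mul_greenD M))

theorem greenD_mul_lapD (M : ℕ) : greenD M * lapD M = 1 :=
  Matrix.nonsing_inv_mul _ (isUnit_det_lapD M)

/-- reflection of the first axis, `i ↦ M - 2 - i` (`Fin.rev`) -/
theorem greenD_rev_fst (v w : VD M) : greenD M (Fin.rev v.1, v.2) (Fin.rev w.1, w.2) = greenD M v w := by
  have h : (lapD M).submatrix (Equiv.prodCongr Fin.revPerm (Equiv.refl _)) (Equiv.prodCongr Fin.revPerm (Equiv.refl _)) = lapD M := by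
    ext a b
    simp only [Matrix.submatrix_apply, Equiv.prodCongr_apply, Prod.map, Fin.revPerm_apply, Equiv.refl_apply]
    unfold lapD
    have ha := a.1.isLt
    have hb := b.1.isLt
    have e1 : ((Fin.rev a.1, a.2) : VD M) = (Fin.rev b.1, b.2) ↔ a = b := by
      simp only [Prod.ext_iff, Fin.rev_inj]
    have e2 : (((Fin.rev a.1 : Fin (M - 1)) : ℕ) : ℤ) - (((Fin.rev b.1 : Fin (M - 1)) : ℕ) : ℤ) = -((((a.1 : Fin (M - 1)) : ℕ) : ℤ) - (((b.1 : Fin (M - 1)) : ℕ) : ℤ)) := by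
      rw [Fin.val_rev, Fin.val_rev]
      omega
    simp only [e1, e2, Int.natAbs_neg]
  have h2 := Matrix.inv_submatrix_equiv (lapD M) (Equiv.prodCongr Fin.revPerm (Equiv.refl _)) (Equiv.prodCongr Fin.revPerm (Equiv.refl _))
  rw [h] at h2
  unfold greenD
  conv_rhs => rw [h2]
  rfl

/-- reflection of the second axis -/
theorem greenD_rev_snd (v w : VD M) : greenD M (v.1, Fin.rev v.2) (w.1, Fin.rev w.2) = greenD M v w := by
  have h := greenD_rev_fst v.swap w.swap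
  rw [greenD_swap v w] at h
  rw [← h, ← greenD_swap]
  rfl

/-- symmetry of the Green matrix -/
theorem greenD_symm (v w : VD M) : greenD M v w = greenD M w v := by
  have h : (lapD M).transpose = lapD M := by
    ext a b
    simp only [Matrix.transpose_apply]
    unfold lapD
    have e1 : b = a ↔ a = b := eq_comm
    have e2 : (((b.1 : Fin (M - 1)) : ℕ) : ℤ) - (((a.1 : Fin (M - 1)) : ℕ) : ℤ) = -((((a.1 : Fin (M - 1)) : ℕ) : ℤ) - (((b.1 : Fin (M - 1)) : ℕ) : ℤ)) := by ring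
    have e3 : (((b.2 : Fin (M - 1)) : ℕ) : ℤ) - (((a.2 : Fin (M - 1)) : ℕ) : ℤ) = -((((a.2 : Fin (M - 1)) : ℕ) : ℤ) - (((b.2 : Fin (M - 1)) : ℕ) : ℤ)) := by ring
    simp only [e1, e2, e3, Int.natAbs_neg]
  have h2 := Matrix.transpose_nonsing_inv (lapD M)
  rw [h] at h2
  unfold greenD
  conv_lhs => rw [← h2]
  rfl

end

end Claimed.Agent.R285.Green
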