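import Claimed.Agent.R285.Hol.Tn

/-!
# ROW 285, package PK-GREEN ([B] L4.2, [F] L4.2 second bound, [B] (6.9)): the killed Green function of the square      (architect helper185)

EXPORTS (verbatim statements of the contracts): `Green.green_bounds` (= `B4.green_bounds`), `Green.green_compare` (= `B4.green_compare`), `Green.green_high` (= `B6a.green_high`): file `Green/Top.lean`.

## ROUTE (no Fourier integrals, no finite range decomposition)
Coordinates: `v : VD M` sits at `gpos v = (v.1 + 1, v.2 + 1) ∈ (0, M)²`.  `θ_k = π (k+1)/M`, `s_k = 2 sin (θ_k/2) ∈ (0, 2)`, `t_k = (s² + s √(s²+4))/2`, `ρ_k = 1 + t_k`: `ρ + ρ⁻¹ = 2 + s² = 4 - 2 cos θ`, `s ≤ t ≤ 3 s`.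
`sh ρ n = ρ^n - ρ^{-n}`;  1D Green function `g1 ρ M a b = sh a sh (M-b) / (sh 1 sh M)` (`a ≤ b`), symmetric: `(ρ + ρ⁻¹) g(a) - g(a+1) - g(a-1) = 1[a = b]` for ALL `a ∈ ℤ`.
FORMULA `greenD M v w = gU M w (gpos v)`, `gU M w x = (2/M) ∑_k sin (θ_k x₁) sin (θ_k w₁) g1 ρ_k M x₂ w₂`; the odd lift of `greenD M · w` is `gU M w` on the strip `-w₂ ≤ x₂ ≤ 2M - w₂`.
On `x₂ ≤ w₂` (or `≥`) every summand is `sin (θ x₁) (A ρ^{x₂} + B ρ^{-x₂})`: a difference in any direction multiplies the size by `≤ ρ - 1 = t` (`2 sin (θ/2) = s ≤ t`).  Hence for `r ≤ |v₂ - w₂| = d`: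
`|∇^r| ≤ (4/M) ∑_k t_k^{r-1} (1 + t_k)^{-d} ≤ C_r (1+d)^{-r}` (Bernoulli `(1+t)^d ≥ (1 + q t)^{r+1}`, `q = ⌊d/(r+1)⌋`, `t_k ≥ 2(k+1)/M`, telescoping `∑ 1/(1+ck)² ≤ 1/c`).  If the sup distance is attained in the first coordinate: swap symmetry.
If `d < r`: all first differences of the lift are `≤ 4` on `ℤ²`, so `|∇^r| ≤ 2^{r+1}`.   Value: `G ≤ (2/M) ∑ (1+t_k)^{-d}/t_k ≤ ∑_k 1/(k (1 + 2dk/M)) ≤ 3 + log⁺ (M/(1+d))`.   Positivity: minimum principle.
`green_compare`: `D = G̃_n - G̃_{n2}` (centred) is discrete harmonic for `|y|_∞ < n`; `∇^r D` is harmonic in the box `|y|_∞ ≤ ⌊n/2⌋`; maximum principle; on the boundary of the box `green_bounds`.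

## FILES (all statements FROZEN; tell helper185 if one is false)
`Fold` (GRN-A), `Dl` (GRN-B1, B2, B3), `Num` (GRN-C, D, E, S1, S2: real numbers only), `Lap` (GRN-F, G + formula glue), `Top` (glue: helper185).
-/

set_option autoImplicit false

namespace Claimed.Agent.R285.Green

open scoped BigOperators
open Claimed.Agent.R285.RG Claimed.Agent.R285.Hol

noncomputable section

/-- position of an interior vertex -/
def gpos {M : ℕ} (v : VD M) : ℤ × ℤ := (((v.1 : ℕ) : ℤ) + 1, ((v.2 : ℕ) : ℤ) + 1)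

/-- the odd lift in one variable -/
def lift1 (M : ℕ) (f : Fin (M - 1) → ℝ) (x : ℤ) : ℝ :=
  match foldD M x with
  | some (σ, i) => (if σ then -1 else 1) * f i
  | none => 0

/-- the plane Laplacian `∑_e (f (x + e) - f x)` -/
def lapZ (f : ℤ × ℤ → ℝ) (x : ℤ × ℤ) : ℝ := ∑ e : Fin 4, dif (dir e) f x

/-- exchange of the two axes on directions -/
def sdir : Fin 4 → Fin 4 := ![2, 3, 0, 1]

/-- frequencies `θ_k = π (k+1)/M`, `k < M - 1` -/
def gth (M k : ℕ) : ℝ := Real.pi * ((k : ℝ) + 1) / M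

/-- `s_k = 2 sin (θ_k / 2)` -/
def gs (M k : ℕ) : ℝ := 2 * Real.sin (gth M k / 2)

/-- `t = ρ - 1` as a function of `s`: the positive root of `t² = s² (1 + t)` -/
def gt (s : ℝ) : ℝ := (s ^ 2 + s * Real.sqrt (s ^ 2 + 4)) / 2

/-- `ρ_k` -/
def grho (M k : ℕ) : ℝ := 1 + gt (gs M k)

/-- `ρ^n - ρ^{-n}` -/
def sh (ρ : ℝ) (n : ℤ) : ℝ := ρ ^ n - ρ ^ (-n)

/-- the one-dimensional Green function of `(ρ + ρ⁻¹) - shifts` on `(0, M)`, as a function of all `a ∈ ℤ` -/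
def g1 (ρ : ℝ) (M : ℕ) (a b : ℤ) : ℝ :=
  if a ≤ b then sh ρ a * sh ρ ((M : ℤ) - b) / (sh ρ 1 * sh ρ M) else sh ρ b * sh ρ ((M : ℤ) - a) / (sh ρ 1 * sh ρ M)

/-- the explicit kernel -/
def gU (M : ℕ) (w : VD M) (x : ℤ × ℤ) : ℝ :=
  2 / (M : ℝ) * ∑ k ∈ Finset.range (M - 1),
    Real.sin (gth M k * (x.1 : ℝ)) * Real.sin (gth M k * ((gpos w).1 : ℝ)) * g1 (grho M k) M x.2 (gpos w).2

/-- the explicit matrix -/
def gH (M : ℕ) : Matrix (VD M) (VD M) ℝ := fun v w => gU M w (gpos v)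

/-- the lifted Green function with pole `w` -/
def gL (M : ℕ) (w : VD M) : ℤ × ℤ → ℝ := liftD M fun v => greenD M v w

end

end Claimed.Agent.R285.Green
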