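import Claimed.Agent.R285.Green.Defs

/-!
# ROW 285, PK-GREEN, package GRN-B: calculus of iterated differences `dl` (`Hol/Tn.lean`: `dl_nil`, `dl_cons`, `dl_add`, `dl_map`, `dl_nnnorm_le`)   (architect helper185; ~350 lines)
All proofs: induction on the list `l` (generalizing the point / the function).  `dir` is `![(1,0),(-1,0),(0,1),(0,-1)]`: use `Fin.cases`/`fin_cases i` + `simp [dir]`.
-/

set_option autoImplicit false

namespace Claimed.Agent.R285.Green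

open scoped BigOperators
open Claimed.Agent.R285.RG Claimed.Agent.R285.Hol

noncomputable section

theorem dl_smul (l : List (Fin 4)) (c : ℝ) (f : ℤ × ℤ → ℝ) (x : ℤ × ℤ) :
    dl l (fun y => c * f y) x = c * dl l f x := by
  induction l generalizing x with
  | nil => rfl
  | cons i l ih => simp only [dl_cons, dif, ih]; ring

theorem dl_sub (l : List (Fin 4)) (f g : ℤ × ℤ → ℝ) (x : ℤ × ℤ) :
    dl l (fun y => f y - g y) x = dl l f x - dl l g x := by
  induction l generalizing x with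
  | nil => rfl
  | cons i l ih => simp only [dl_cons, dif, ih]; ring

theorem dl_sum {ι : Type} (l : List (Fin 4)) (s : Finset ι) (F : ι → ℤ × ℤ → ℝ) (x : ℤ × ℤ) :
    dl l (fun y => ∑ k ∈ s, F k y) x = ∑ k ∈ s, dl l (F k) x := by
  induction l generalizing x with
  | nil => rfl
  | cons i l ih => simp only [dl_cons, dif, ih, Finset.sum_sub_distrib]

/-- translation -/
theorem dl_shift (l : List (Fin 4)) (f : ℤ × ℤ → ℝ) (c x : ℤ × ℤ) :
    dl l (fun y => f (y + c)) x = dl l f (x + c) := by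
  induction l generalizing x with
  | nil => rfl
  | cons i l ih => simp only [dl_cons, dif, ih, add_right_comm]

theorem dir_abs_le (i : Fin 4) : |(dir i).1| ≤ 1 ∧ |(dir i).2| ≤ 1 := by
  fin_cases i <;> simp [dir]

/-- locality: `dl l f x` only depends on `f` in the box of radius `l.length` around `x` -/
theorem dl_congr_local (l : List (Fin 4)) {f g : ℤ × ℤ → ℝ} {x : ℤ × ℤ}
    (h : ∀ y : ℤ × ℤ, |y.1 - x.1| ≤ l.length → |y.2 - x.2| ≤ l.length → f y = g y) :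
    dl l f x = dl l g x := by
  induction l generalizing x with
  | nil => exact h x (by simp) (by simp)
  | cons i l ih =>
    simp only [dl_cons, dif]
    have hd := dir_abs_le i
    rw [abs_le] at hd
    rw [ih (x := x + dir i), ih (x := x)]
    · intro y h1 h2
      refine h y ?_ ?_
      · simp only [List.length_cons]; push_cast; exact h1.trans (by omega)
      · simp only [List.length_cons]; push_cast; exact h2.trans (by omega)
    · intro y h1 h2
      have hd2 := hd.2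
      rw [abs_le] at hd2
      simp only [Prod.fst_add, Prod.snd_add] at h1 h2
      rw [abs_le] at h1 h2
      refine h y ?_ ?_
      · simp only [List.length_cons]; push_cast; rw [abs_le]; constructor <;> omega
      · simp only [List.length_cons]; push_cast; rw [abs_le]; constructor <;> omega

theorem dl_append (l l' : List (Fin 4)) (f : ℤ × ℤ → ℝ) : dl (l ++ l') f = dl l (dl l' f) := by
  unfold dl
  rw [List.foldr_append]

theorem dl_abs_le (l : List (Fin 4)) {g : ℤ × ℤ → ℝ} {K : ℝ} (h : ∀ y, |g y| ≤ K) (x : ℤ × ℤ) :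
    |dl l g x| ≤ 2 ^ l.length * K := by
  induction l generalizing x with
  | nil => simpa [dl_nil] using h x
  | cons i l ih =>
    simp only [dl_cons, dif, List.length_cons]
    calc |dl l g (x + dir i) - dl l g x| ≤ |dl l g (x + dir i)| + |dl l g x| := abs_sub _ _
      _ ≤ 2 ^ l.length * K + 2 ^ l.length * K := add_le_add (ih _) (ih _)
      _ = 2 ^ (l.length + 1) * K := by ring

/-- [`l = l' ++ [e]` (`List.eq_nil_or_concat`), `dl_append`, then `|dl l' g x| ≤ 2 ^ l'.length * K` by induction (or `dl_nnnorm_le`).] -/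
theorem dl_abs_le_edge (l : List (Fin 4)) (hl : l ≠ []) {f : ℤ × ℤ → ℝ} {K : ℝ}
    (h : ∀ (e : Fin 4) (y : ℤ × ℤ), |dif (dir e) f y| ≤ K) (x : ℤ × ℤ) :
    |dl l f x| ≤ 2 ^ (l.length - 1) * K := by
  rcases List.eq_nil_or_concat l with rfl | ⟨l', e, rfl⟩
  · exact absurd rfl hl
  · rw [List.concat_eq_append, dl_append]
    have : (l' ++ [e]).length - 1 = l'.length := by simp
    rw [this]
    exact dl_abs_le l' (g := dl [e] f) (fun y => h e y) x

theorem swap_add_dir (x : ℤ × ℤ) (i : Fin 4) : (x + dir i).swap = x.swap + dir (sdir i) := by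
  fin_cases i <;> simp [dir, sdir]

theorem dl_swap (l : List (Fin 4)) (f : ℤ × ℤ → ℝ) (x : ℤ × ℤ) :
    dl l (fun y => f y.swap) x = dl (l.map sdir) f x.swap := by
  induction l generalizing x with
  | nil => rfl
  | cons i l ih => simp only [List.map_cons, dl_cons, dif, ih, swap_add_dir]

theorem dif_dl (e : ℤ × ℤ) (l : List (Fin 4)) (f : ℤ × ℤ → ℝ) (x : ℤ × ℤ) :
    dif e (dl l f) x = dl l (dif e f) x := by
  have h : dif e f = fun y => (fun y => f (y + e)) y - f y := rfl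
  rw [h, dl_sub, dl_shift]
  rfl

/-- differences commute with the Laplacian -/
theorem dl_lapZ (l : List (Fin 4)) (f : ℤ × ℤ → ℝ) (x : ℤ × ℤ) :
    lapZ (dl l f) x = dl l (lapZ f) x := by
  have h : lapZ f = fun y => ∑ e : Fin 4, dif (dir e) f y := rfl
  rw [h, dl_sum]
  exact Finset.sum_congr rfl fun e _ => dif_dl _ l f x

/-- one difference of a member of the family -/
theorem dl_family_step {θ ρ κ : ℝ} (hρ : 1 ≤ ρ) (h1 : |2 * Real.sin (θ / 2)| ≤ κ) (h2 : ρ - 1 ≤ κ)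
    (i : Fin 4) (φ A B : ℝ) : ∃ φ' A' B' : ℝ,
      dif (dir i) (fun y : ℤ × ℤ => Real.sin (θ * (y.1 : ℝ) + φ) * (A * ρ ^ y.2 + B * ρ ^ (-y.2)))
        = (fun y : ℤ × ℤ => Real.sin (θ * (y.1 : ℝ) + φ') * (A' * ρ ^ y.2 + B' * ρ ^ (-y.2))) ∧
      |A'| ≤ κ * |A| ∧ |B'| ≤ κ * |B| := by
  have hρ0 : ρ ≠ 0 := by positivity
  have hρpos : 0 < ρ := by positivity
  have h3 : |ρ - 1| ≤ κ := by rw [abs_of_nonneg (by linarith)]; exact h2
  have h4 : |ρ⁻¹ - 1| ≤ κ := by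
    have h5 : ρ⁻¹ ≤ 1 := inv_le_one_of_one_le₀ hρ
    have h6 : 1 - ρ⁻¹ ≤ ρ - 1 := by
      have : ρ * ρ⁻¹ = 1 := mul_inv_cancel₀ hρ0
      nlinarith [inv_pos.2 hρpos]
    rw [abs_of_nonpos (by linarith)]
    linarith
  fin_cases i
  · refine ⟨φ + θ / 2 + Real.pi / 2, 2 * Real.sin (θ / 2) * A, 2 * Real.sin (θ / 2) * B, ?_, ?_, ?_⟩
    · funext y
      simp only [dif, dir, Fin.zero_eta, Matrix.cons_val_zero, Prod.fst_add, Prod.snd_add, add_zero]
      push_cast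
      have e1 : Real.sin (θ * ((y.1 : ℝ) + 1) + φ) - Real.sin (θ * (y.1 : ℝ) + φ)
          = 2 * Real.sin (θ / 2) * Real.sin (θ * (y.1 : ℝ) + (φ + θ / 2 + Real.pi / 2)) := by
        rw [Real.sin_sub_sin, show θ * (y.1 : ℝ) + (φ + θ / 2 + Real.pi / 2)
          = (θ * (y.1 : ℝ) + φ + θ / 2) + Real.pi / 2 by ring, Real.sin_add_pi_div_two]
        congr 2 <;> ring_nf
      linear_combination (A * ρ ^ y.2 + B * ρ ^ (-y.2)) * e1
    · rw [abs_mul]; exact mul_le_mul_of_nonneg_right h1 (abs_nonneg _)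
    · rw [abs_mul]; exact mul_le_mul_of_nonneg_right h1 (abs_nonneg _)
  · refine ⟨φ - θ / 2 + Real.pi / 2, -(2 * Real.sin (θ / 2)) * A, -(2 * Real.sin (θ / 2)) * B, ?_, ?_, ?_⟩
    · funext y
      simp only [dif, dir, Fin.mk_one, Matrix.cons_val_one, Matrix.cons_val_zero, Prod.fst_add, Prod.snd_add,
        add_zero]
      push_cast
      have e1 : Real.sin (θ * ((y.1 : ℝ) + -1) + φ) - Real.sin (θ * (y.1 : ℝ) + φ)
          = -(2 * Real.sin (θ / 2)) * Real.sin (θ * (y.1 : ℝ) + (φ - θ / 2 + Real.pi / 2)) := by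
        rw [Real.sin_sub_sin, show θ * (y.1 : ℝ) + (φ - θ / 2 + Real.pi / 2)
          = (θ * (y.1 : ℝ) + φ - θ / 2) + Real.pi / 2 by ring, Real.sin_add_pi_div_two,
          show (θ * ((y.1 : ℝ) + -1) + φ - (θ * (y.1 : ℝ) + φ)) / 2 = -(θ / 2) by ring, Real.sin_neg,
          show (θ * ((y.1 : ℝ) + -1) + φ + (θ * (y.1 : ℝ) + φ)) / 2 = θ * (y.1 : ℝ) + φ - θ / 2 by ring]
        ring
      linear_combination (A * ρ ^ y.2 + B * ρ ^ (-y.2)) * e1
    · rw [abs_mul, abs_neg]; exact mul_le_mul_of_nonneg_right h1 (abs_nonneg _)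
    · rw [abs_mul, abs_neg]; exact mul_le_mul_of_nonneg_right h1 (abs_nonneg _)
  · refine ⟨φ, (ρ - 1) * A, (ρ⁻¹ - 1) * B, ?_, ?_, ?_⟩
    · funext y
      have e0 : dir (⟨2, by norm_num⟩ : Fin 4) = (0, 1) := rfl
      simp only [dif, e0, Prod.fst_add, Prod.snd_add, add_zero]
      rw [zpow_add₀ hρ0, neg_add, zpow_add₀ hρ0, zpow_one, zpow_neg_one]
      ring
    · rw [abs_mul]; exact mul_le_mul_of_nonneg_right h3 (abs_nonneg _)
    · rw [abs_mul]; exact mul_le_mul_of_nonneg_right h4 (abs_nonneg _)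
  · refine ⟨φ, (ρ⁻¹ - 1) * A, (ρ - 1) * B, ?_, ?_, ?_⟩
    · funext y
      have e0 : dir (⟨3, by norm_num⟩ : Fin 4) = (0, -1) := rfl
      simp only [dif, e0, Prod.fst_add, Prod.snd_add, add_zero]
      rw [zpow_add₀ hρ0, neg_add, zpow_add₀ hρ0, neg_neg, zpow_one, zpow_neg_one]
      ring
    · rw [abs_mul]; exact mul_le_mul_of_nonneg_right h4 (abs_nonneg _)
    · rw [abs_mul]; exact mul_le_mul_of_nonneg_right h3 (abs_nonneg _)

theorem dl_family_aux {θ ρ κ : ℝ} (hρ : 1 ≤ ρ) (h1 : |2 * Real.sin (θ / 2)| ≤ κ) (h2 : ρ - 1 ≤ κ)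
    (l : List (Fin 4)) (φ A B : ℝ) : ∃ φ' A' B' : ℝ,
      dl l (fun y : ℤ × ℤ => Real.sin (θ * (y.1 : ℝ) + φ) * (A * ρ ^ y.2 + B * ρ ^ (-y.2)))
        = (fun y : ℤ × ℤ => Real.sin (θ * (y.1 : ℝ) + φ') * (A' * ρ ^ y.2 + B' * ρ ^ (-y.2))) ∧
      |A'| ≤ κ ^ l.length * |A| ∧ |B'| ≤ κ ^ l.length * |B| := by
  have hκ : 0 ≤ κ := (abs_nonneg _).trans h1
  induction l with
  | nil => exact ⟨φ, A, B, rfl, by simp, by simp⟩
  | cons i l ih =>
    obtain ⟨φ', A', B', e, hA, hB⟩ := ih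
    obtain ⟨φ'', A'', B'', e', hA', hB'⟩ := dl_family_step hρ h1 h2 i φ' A' B'
    refine ⟨φ'', A'', B'', by rw [dl_cons, e, e'], ?_, ?_⟩
    · rw [List.length_cons, pow_succ', mul_assoc]
      exact hA'.trans (mul_le_mul_of_nonneg_left hA hκ)
    · rw [List.length_cons, pow_succ', mul_assoc]
      exact hB'.trans (mul_le_mul_of_nonneg_left hB hκ)

/-- **the family** `sin (θ y₁ + φ) (A ρ^{y₂} + B ρ^{-y₂})` is stable under differences; each difference costs a factor `κ`.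
[Prove by induction on `l` the stronger statement: `∃ φ' A' B', dl l F = (the member with φ', A', B') ∧ |A'| ≤ κ ^ l.length * |A| ∧ |B'| ≤ κ ^ l.length * |B|`.
Step: `sin (θ (y+1) + φ) - sin (θ y + φ) = 2 sin (θ/2) sin (θ y + φ + θ/2 + π/2)`, `sin (θ (y-1) + φ) - sin (θ y + φ) = 2 sin (θ/2) sin (θ y + φ - θ/2 - π/2)` (`Real.sin_sub_sin`, `Real.cos_eq_sin..`): put the factor into `A', B'`;
`A ρ^{y+1} + B ρ^{-(y+1)} - (A ρ^y + B ρ^{-y}) = A (ρ - 1) ρ^y + B (ρ⁻¹ - 1) ρ^{-y}`, `|ρ⁻¹ - 1| = (ρ - 1)/ρ ≤ ρ - 1`; the same for `y - 1` (`zpow_add₀`).  Finally `|sin| ≤ 1`.] -/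
theorem dl_family {θ ρ κ : ℝ} (hρ : 1 ≤ ρ) (h1 : |2 * Real.sin (θ / 2)| ≤ κ) (h2 : ρ - 1 ≤ κ)
    (l : List (Fin 4)) (φ A B : ℝ) (x : ℤ × ℤ) :
    |dl l (fun y : ℤ × ℤ => Real.sin (θ * (y.1 : ℝ) + φ) * (A * ρ ^ y.2 + B * ρ ^ (-y.2))) x|
      ≤ κ ^ l.length * (|A| * ρ ^ x.2 + |B| * ρ ^ (-x.2)) := by
  obtain ⟨φ', A', B', e, hA, hB⟩ := dl_family_aux hρ h1 h2 l φ A B
  have hρpos : 0 < ρ := by positivity
  have p1 : 0 < ρ ^ x.2 := zpow_pos hρpos _
  have p2 : 0 < ρ ^ (-x.2) := zpow_pos hρpos _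
  rw [e]
  simp only
  rw [abs_mul]
  calc |Real.sin (θ * (x.1 : ℝ) + φ')| * |A' * ρ ^ x.2 + B' * ρ ^ (-x.2)|
      ≤ 1 * |A' * ρ ^ x.2 + B' * ρ ^ (-x.2)| :=
        mul_le_mul_of_nonneg_right (Real.abs_sin_le_one _) (abs_nonneg _)
    _ ≤ |A'| * ρ ^ x.2 + |B'| * ρ ^ (-x.2) := by
        rw [one_mul]
        refine (abs_add_le _ _).trans ?_
        rw [abs_mul, abs_mul, abs_of_pos p1, abs_of_pos p2]
    _ ≤ κ ^ l.length * |A| * ρ ^ x.2 + κ ^ l.length * |B| * ρ ^ (-x.2) :=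
        add_le_add (mul_le_mul_of_nonneg_right hA p1.le) (mul_le_mul_of_nonneg_right hB p2.le)
    _ = _ := by ring

theorem lapZ_eq (f : ℤ × ℤ → ℝ) (y : ℤ × ℤ) :
    lapZ f y = (f (y.1 + 1, y.2) - f y) + (f (y.1 - 1, y.2) - f y) + (f (y.1, y.2 + 1) - f y)
      + (f (y.1, y.2 - 1) - f y) := by
  obtain ⟨a, b⟩ := y
  simp [lapZ, Fin.sum_univ_four, dif, dir, sub_eq_add_neg]

/-- one-sided maximum principle -/
theorem box_max_aux (R : ℕ) {f : ℤ × ℤ → ℝ} {K : ℝ}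
    (hh : ∀ y : ℤ × ℤ, |y.1| < R → |y.2| < R → lapZ f y = 0)
    (hb : ∀ y : ℤ × ℤ, |y.1| ≤ R → |y.2| ≤ R → (|y.1| = R ∨ |y.2| = R) → f y ≤ K)
    (x : ℤ × ℤ) (h1 : |x.1| ≤ R) (h2 : |x.2| ≤ R) : f x ≤ K := by
  classical
  set S : Finset (ℤ × ℤ) := Finset.Icc (-(R : ℤ)) R ×ˢ Finset.Icc (-(R : ℤ)) R with hS
  have hmem : ∀ y : ℤ × ℤ, y ∈ S ↔ |y.1| ≤ R ∧ |y.2| ≤ R := by
    intro y
    rw [hS, Finset.mem_product, Finset.mem_Icc, Finset.mem_Icc, abs_le, abs_le]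
  have hx : x ∈ S := (hmem x).2 ⟨h1, h2⟩
  obtain ⟨y₀, hy₀, hmax⟩ := Finset.exists_max_image S f ⟨x, hx⟩
  set T : Finset (ℤ × ℤ) := S.filter (fun y => f y = f y₀) with hT
  have hy₀T : y₀ ∈ T := Finset.mem_filter.2 ⟨hy₀, rfl⟩
  obtain ⟨y, hyT, hymax⟩ := Finset.exists_max_image T (fun y => y.1) ⟨y₀, hy₀T⟩
  obtain ⟨hyS, hfy⟩ := Finset.mem_filter.1 hyT
  obtain ⟨b1, b2⟩ := (hmem y).1 hyS
  by_cases hbd : |y.1| = R ∨ |y.2| = R
  · calc f x ≤ f y₀ := hmax x hx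
      _ = f y := hfy.symm
      _ ≤ K := hb y b1 b2 hbd
  · exfalso
    push Not at hbd
    have c1 : |y.1| < R := lt_of_le_of_ne b1 hbd.1
    have c2 : |y.2| < R := lt_of_le_of_ne b2 hbd.2
    have hl := hh y c1 c2
    rw [lapZ_eq] at hl
    rw [abs_lt] at c1 c2
    have m1 : ((y.1 + 1, y.2) : ℤ × ℤ) ∈ S := (hmem _).2 ⟨abs_le.2 ⟨by simp only; omega, by simp only; omega⟩,
      abs_le.2 ⟨by simp only; omega, by simp only; omega⟩⟩
    have m2 : ((y.1 - 1, y.2) : ℤ × ℤ) ∈ S := (hmem _).2 ⟨abs_le.2 ⟨by simp only; omega, by simp only; omega⟩,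
      abs_le.2 ⟨by simp only; omega, by simp only; omega⟩⟩
    have m3 : ((y.1, y.2 + 1) : ℤ × ℤ) ∈ S := (hmem _).2 ⟨abs_le.2 ⟨by simp only; omega, by simp only; omega⟩,
      abs_le.2 ⟨by simp only; omega, by simp only; omega⟩⟩
    have m4 : ((y.1, y.2 - 1) : ℤ × ℤ) ∈ S := (hmem _).2 ⟨abs_le.2 ⟨by simp only; omega, by simp only; omega⟩,
      abs_le.2 ⟨by simp only; omega, by simp only; omega⟩⟩
    have n1 := hmax _ m1
    have n2 := hmax _ m2
    have n3 := hmax _ m3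
    have n4 := hmax _ m4
    have n1' : f (y.1 + 1, y.2) ≠ f y₀ := by
      intro he
      have := hymax _ (Finset.mem_filter.2 ⟨m1, he⟩)
      simp only at this
      omega
    have n1'' : f (y.1 + 1, y.2) < f y₀ := lt_of_le_of_ne n1 n1'
    linarith

/-- **maximum principle on a box**: `f` discrete harmonic at the points `|y|_∞ < R`.
[finite box `Finset.Icc (-R) R ×ˢ Finset.Icc (-R) R`; apply to `f` and `-f`: let `m` be the maximum of `f` over the box, among the maximisers take one with the largest first coordinate; if `|y|_∞ < R` then the right neighbour is in the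
box with `f < m`, the three others have `f ≤ m`, contradiction with `lapZ f y = 0`.] -/
theorem box_max (R : ℕ) {f : ℤ × ℤ → ℝ} {K : ℝ}
    (hh : ∀ y : ℤ × ℤ, |y.1| < R → |y.2| < R → lapZ f y = 0)
    (hb : ∀ y : ℤ × ℤ, |y.1| ≤ R → |y.2| ≤ R → (|y.1| = R ∨ |y.2| = R) → |f y| ≤ K)
    (x : ℤ × ℤ) (h1 : |x.1| ≤ R) (h2 : |x.2| ≤ R) : |f x| ≤ K := by
  rw [abs_le]
  constructor
  · have := box_max_aux R (f := fun y => - f y) (K := K) (fun y a b => by
      have := hh y a b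
      rw [lapZ_eq] at this ⊢
      linarith) (fun y a b c => (neg_le_abs _).trans (hb y a b c)) x h1 h2
    linarith
  · exact box_max_aux R hh (fun y a b c => (le_abs_self _).trans (hb y a b c)) x h1 h2

end

end Claimed.Agent.R285.Green
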