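import Claimed.Agent.R285.Green.Defs

/-!
# ROW 285, PK-GREEN, package GRN-A: the odd folding map `foldD`, the lifts `lift1`, `liftD`   (architect helper185; ~300 lines, `omega` + `Int.emod`)
HINTS.  Unfold `lift1`, `liftD`, `foldD`; compute `x % (2 * M)` with `Int.emod_emod_of_dvd`, `Int.add_mul_emod_self`, `Int.emod_eq_of_lt`, `Int.neg_emod`...; a convenient first lemma:
`foldD_of_lt` (`0 < y < M`, `x % (2M) = y` ⟹ `foldD M x = some (false, ⟨y - 1⟩)`), `foldD_of_gt` (`M < y < 2M` ⟹ `some (true, ⟨2M - y - 1⟩)`), `foldD_none` (`y = 0` or `y = M`).  Use `split_ifs`/`dif_pos`, `Fin.ext`, `omega`.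
-/

set_option autoImplicit false

namespace Claimed.Agent.R285.Green

open scoped BigOperators
open Claimed.Agent.R285.RG Claimed.Agent.R285.Hol

noncomputable section

variable {M : ℕ}

theorem foldD_of_lt {x y : ℤ} (hy : x % (2 * (M : ℤ)) = y) (h0 : 0 < y) (h1 : y < M) :
    foldD M x = some (false, ⟨(y - 1).toNat, by omega⟩) := by
  subst hy
  unfold foldD
  rw [dif_pos ⟨h0, h1⟩]

theorem foldD_of_gt {x y : ℤ} (hy : x % (2 * (M : ℤ)) = y) (h0 : (M : ℤ) < y) (h1 : y < 2 * M) :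
    foldD M x = some (true, ⟨(2 * (M : ℤ) - y - 1).toNat, by omega⟩) := by
  subst hy
  unfold foldD
  rw [dif_neg (by omega), dif_pos ⟨h0, h1⟩]

theorem foldD_none {x : ℤ} (h : x % (2 * (M : ℤ)) = 0 ∨ x % (2 * (M : ℤ)) = M) : foldD M x = none := by
  unfold foldD
  rw [dif_neg (by omega), dif_neg (by omega)]

theorem foldD_zero_M (x : ℤ) : foldD 0 x = none := by
  unfold foldD
  rw [dif_neg (by push_cast; omega), dif_neg (by push_cast; omega)]

theorem fold_emod {x y N : ℤ} (q : ℤ) (h : x = y + N * q) (h0 : 0 ≤ y) (h1 : y < N) : x % N = y := by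
  subst h
  rw [Int.add_mul_emod_self_left, Int.emod_eq_of_lt h0 h1]

/-- the four cases -/
theorem fold_cases (hM : 1 ≤ M) (x : ℤ) : ∃ y q : ℤ, x = y + 2 * (M : ℤ) * q ∧ x % (2 * (M : ℤ)) = y ∧
    (y = 0 ∨ (0 < y ∧ y < M) ∨ y = M ∨ ((M : ℤ) < y ∧ y < 2 * M)) := by
  have h2 : (0 : ℤ) < 2 * (M : ℤ) := by omega
  refine ⟨x % (2 * (M : ℤ)), x / (2 * (M : ℤ)), (Int.emod_add_mul_ediv x _).symm, rfl, ?_⟩
  have h3 := Int.emod_nonneg x h2.ne'
  have h4 := Int.emod_lt_of_pos x h2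
  omega

theorem foldD_congr {x x' : ℤ} (h : x % (2 * (M : ℤ)) = x' % (2 * (M : ℤ))) : foldD M x = foldD M x' := by
  unfold foldD
  simp only [h]

theorem lift1_congr (f : Fin (M - 1) → ℝ) {x x' : ℤ} (h : x % (2 * (M : ℤ)) = x' % (2 * (M : ℤ))) :
    lift1 M f x = lift1 M f x' := by
  unfold lift1
  rw [foldD_congr h]

theorem lift1_of_lt (f : Fin (M - 1) → ℝ) {x y : ℤ} (hy : x % (2 * (M : ℤ)) = y) (h0 : 0 < y) (h1 : y < M) :
    lift1 M f x = f ⟨(y - 1).toNat, by omega⟩ := by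
  unfold lift1
  rw [foldD_of_lt hy h0 h1]
  simp

theorem lift1_of_gt (f : Fin (M - 1) → ℝ) {x y : ℤ} (hy : x % (2 * (M : ℤ)) = y) (h0 : (M : ℤ) < y)
    (h1 : y < 2 * M) : lift1 M f x = - f ⟨(2 * (M : ℤ) - y - 1).toNat, by omega⟩ := by
  unfold lift1
  rw [foldD_of_gt hy h0 h1]
  simp

theorem lift1_of_none (f : Fin (M - 1) → ℝ) {x : ℤ} (h : x % (2 * (M : ℤ)) = 0 ∨ x % (2 * (M : ℤ)) = M) :
    lift1 M f x = 0 := by
  unfold lift1
  rw [foldD_none h]

theorem lift1_zero_M (f : Fin (0 - 1) → ℝ) (x : ℤ) : lift1 0 f x = 0 := by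
  unfold lift1
  rw [foldD_zero_M]

theorem lift1_pos (f : Fin (M - 1) → ℝ) (i : Fin (M - 1)) : lift1 M f (((i : ℕ) : ℤ) + 1) = f i := by
  have hi := i.2
  rw [lift1_of_lt f (y := ((i : ℕ) : ℤ) + 1) (Int.emod_eq_of_lt (by omega) (by omega)) (by omega) (by omega)]
  congr 1
  apply Fin.ext
  simp

theorem lift1_zero (f : Fin (M - 1) → ℝ) : lift1 M f 0 = 0 :=
  lift1_of_none f (Or.inl (Int.zero_emod _))

theorem lift1_M (f : Fin (M - 1) → ℝ) : lift1 M f (M : ℤ) = 0 := by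
  rcases Nat.eq_zero_or_pos M with rfl | hM
  · exact lift1_zero_M f _
  · exact lift1_of_none f (Or.inr (Int.emod_eq_of_lt (by omega) (by omega)))

theorem lift1_neg (f : Fin (M - 1) → ℝ) (x : ℤ) : lift1 M f (-x) = - lift1 M f x := by
  rcases Nat.eq_zero_or_pos M with rfl | hM
  · rw [lift1_zero_M, lift1_zero_M, neg_zero]
  obtain ⟨y, q, hx, hy, h | h | h | h⟩ := fold_cases hM x
  · rw [lift1_of_none f (Or.inl (hy.trans h)),
      lift1_of_none f (Or.inl (fold_emod (-q) (by rw [hx, h]; ring) le_rfl (by omega))), neg_zero]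
  · rw [lift1_of_lt f hy h.1 h.2, lift1_of_gt f (y := 2 * (M : ℤ) - y)
      (fold_emod (-q - 1) (by rw [hx]; ring) (by omega) (by omega)) (by omega) (by omega)]
    congr 2
    apply Fin.ext
    simp only
    congr 1
    ring
  · rw [lift1_of_none f (Or.inr (hy.trans h)),
      lift1_of_none f (Or.inr (fold_emod (-q - 1) (by rw [hx, h]; ring) (by omega) (by omega))), neg_zero]
  · rw [lift1_of_gt f hy h.1 h.2, lift1_of_lt f (y := 2 * (M : ℤ) - y)
      (fold_emod (-q - 1) (by rw [hx]; ring) (by omega) (by omega)) (by omega) (by omega), neg_neg]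

theorem lift1_period (f : Fin (M - 1) → ℝ) (x : ℤ) : lift1 M f (x + 2 * (M : ℤ)) = lift1 M f x :=
  lift1_congr f (Int.add_emod_right _ _)

theorem fold_periodic {s : ℤ → ℝ} (hper : ∀ x, s (x + 2 * (M : ℤ)) = s x) (x q : ℤ) :
    s (x + 2 * (M : ℤ) * q) = s x := by
  induction q using Int.induction_on with
  | zero => simp
  | succ n ih => rw [← ih, ← hper (x + 2 * (M : ℤ) * n)]; congr 1; ring
  | pred n ih => rw [← ih, ← hper (x + 2 * (M : ℤ) * (-(n : ℤ) - 1))]; congr 1; ring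

/-- [from the five lemmas above: reduce `x` mod `2M` by induction (`Int.emod_add_ediv`; first `lift1 M f (x + 2 * M * n) = lift1 M f x` for `n : ℤ`), then `y = x % 2M ∈ [0, 2M)`:
`y = 0, M`: `s 0 = 0`, `s M = s (-M) = - s M`; `0 < y < M`: `lift1_pos`; `M < y < 2M`: `lift1 (y) = lift1 (y - 2M) = - lift1 (2M - y)`.] -/
theorem lift1_of_odd (hM : 1 ≤ M) (s : ℤ → ℝ) (hodd : ∀ x, s (-x) = - s x)
    (hper : ∀ x, s (x + 2 * (M : ℤ)) = s x) (x : ℤ) :
    lift1 M (fun i => s (((i : ℕ) : ℤ) + 1)) x = s x := by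
  obtain ⟨y, q, hx, hy, h | h | h | h⟩ := fold_cases hM x
  · rw [lift1_of_none _ (Or.inl (hy.trans h)), hx, fold_periodic hper, h]
    have := hodd 0
    rw [neg_zero] at this
    linarith
  · rw [lift1_of_lt _ hy h.1 h.2, hx, fold_periodic hper]
    congr 1
    simp only
    omega
  · rw [lift1_of_none _ (Or.inr (hy.trans h)), hx, fold_periodic hper, h]
    have h1 := hodd M
    have h2 := hper (-(M : ℤ))
    have h3 : -(M : ℤ) + 2 * (M : ℤ) = M := by ring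
    rw [h3] at h2
    linarith
  · rw [lift1_of_gt _ hy h.1 h.2, hx, fold_periodic hper, ← hodd, ← hper]
    congr 1
    simp only
    omega

theorem lift1_abs_le (f : Fin (M - 1) → ℝ) {c : ℝ} (hc : 0 ≤ c) (h : ∀ i, |f i| ≤ c) (x : ℤ) :
    |lift1 M f x| ≤ c := by
  rcases Nat.eq_zero_or_pos M with rfl | hM
  · rw [lift1_zero_M, abs_zero]; exact hc
  obtain ⟨y, q, hx, hy, h' | h' | h' | h'⟩ := fold_cases hM x
  · rw [lift1_of_none _ (Or.inl (hy.trans h')), abs_zero]; exact hc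
  · rw [lift1_of_lt _ hy h'.1 h'.2]; exact h _
  · rw [lift1_of_none _ (Or.inr (hy.trans h')), abs_zero]; exact hc
  · rw [lift1_of_gt _ hy h'.1 h'.2, abs_neg]; exact h _

/-- [`y = x % 2M`; `y < M`: `lift1 x = lift1 y`, `lift1 (x+1) = lift1 (y+1)`; `M ≤ y`: `lift1 x = - lift1 (2M - y)`, `lift1 (x+1) = - lift1 (2M - y - 1)`.] -/
theorem lift1_dif_le (f : Fin (M - 1) → ℝ) {c : ℝ} (hc : 0 ≤ c)
    (h : ∀ a : ℤ, 0 ≤ a → a < M → |lift1 M f (a + 1) - lift1 M f a| ≤ c) (x : ℤ) :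
    |lift1 M f (x + 1) - lift1 M f x| ≤ c := by
  rcases Nat.eq_zero_or_pos M with rfl | hM
  · rw [lift1_zero_M, lift1_zero_M, sub_zero, abs_zero]; exact hc
  obtain ⟨y, q, hx, hy, h'⟩ := fold_cases hM x
  have e1 : lift1 M f x = lift1 M f y := lift1_congr f (by rw [hx, Int.add_mul_emod_self_left])
  have e2 : lift1 M f (x + 1) = lift1 M f (y + 1) := lift1_congr f (by
    rw [hx, show y + 2 * (M : ℤ) * q + 1 = (y + 1) + 2 * (M : ℤ) * q by ring, Int.add_mul_emod_self_left])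
  rw [e1, e2]
  by_cases hyM : y < M
  · exact h y (by omega) hyM
  · have e3 : lift1 M f y = - lift1 M f (2 * (M : ℤ) - y - 1 + 1) := by
      rw [← lift1_neg, ← lift1_period f (-(2 * (M : ℤ) - y - 1 + 1))]; congr 1; ring
    have e4 : lift1 M f (y + 1) = - lift1 M f (2 * (M : ℤ) - y - 1) := by
      rw [← lift1_neg, ← lift1_period f (-(2 * (M : ℤ) - y - 1))]; congr 1; ring
    rw [e3, e4]
    have := h (2 * (M : ℤ) - y - 1) (by omega) (by omega)
    rw [show -lift1 M f (2 * (M : ℤ) - y - 1) - -lift1 M f (2 * (M : ℤ) - y - 1 + 1)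
      = lift1 M f (2 * (M : ℤ) - y - 1 + 1) - lift1 M f (2 * (M : ℤ) - y - 1) by ring]
    exact this

theorem liftD_mul (f g : Fin (M - 1) → ℝ) (x : ℤ × ℤ) :
    liftD M (fun v => f v.1 * g v.2) x = lift1 M f x.1 * lift1 M g x.2 := by
  unfold liftD lift1
  rcases foldD M x.1 with _ | ⟨σ, i⟩ <;> rcases foldD M x.2 with _ | ⟨τ, j⟩
  · simp
  · simp
  · simp
  · cases σ <;> cases τ <;> simp

theorem liftD_smul (c : ℝ) (f : VD M → ℝ) (x : ℤ × ℤ) :
    liftD M (fun v => c * f v) x = c * liftD M f x := by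
  unfold liftD
  rcases foldD M x.1 with _ | ⟨σ, i⟩ <;> rcases foldD M x.2 with _ | ⟨τ, j⟩
  · simp
  · simp
  · simp
  · simp only; ring

theorem liftD_sum {ι : Type} (s : Finset ι) (F : ι → VD M → ℝ) (x : ℤ × ℤ) :
    liftD M (fun v => ∑ k ∈ s, F k v) x = ∑ k ∈ s, liftD M (F k) x := by
  unfold liftD
  rcases foldD M x.1 with _ | ⟨σ, i⟩ <;> rcases foldD M x.2 with _ | ⟨τ, j⟩
  · simp
  · simp
  · simp
  · simp only [Finset.mul_sum]

theorem liftD_gpos (f : VD M → ℝ) (v : VD M) : liftD M f (gpos v) = f v := by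
  have h1 := v.1.2
  have h2 := v.2.2
  unfold liftD gpos
  simp only
  rw [foldD_of_lt (y := ((v.1 : ℕ) : ℤ) + 1) (Int.emod_eq_of_lt (by omega) (by omega)) (by omega) (by omega),
    foldD_of_lt (y := ((v.2 : ℕ) : ℤ) + 1) (Int.emod_eq_of_lt (by omega) (by omega)) (by omega) (by omega)]
  simp

/-- the lift vanishes on the boundary lines -/
theorem liftD_bdry (f : VD M → ℝ) (x : ℤ × ℤ) (h : x.1 = 0 ∨ x.1 = M ∨ x.2 = 0 ∨ x.2 = M) :
    liftD M f x = 0 := by
  rcases Nat.eq_zero_or_pos M with rfl | hM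
  · unfold liftD
    rw [foldD_zero_M]
  have hMM : (M : ℤ) % (2 * (M : ℤ)) = M := Int.emod_eq_of_lt (by omega) (by omega)
  unfold liftD
  rcases h with h | h | h | h
  · rw [h, foldD_none (Or.inl (Int.zero_emod _))]
  · rw [h, foldD_none (Or.inr hMM)]
  · rw [h, foldD_none (x := 0) (Or.inl (Int.zero_emod _))]
    rcases foldD M x.1 with _ | ⟨σ, i⟩ <;> rfl
  · rw [h, foldD_none (x := (M : ℤ)) (Or.inr hMM)]
    rcases foldD M x.1 with _ | ⟨σ, i⟩ <;> rfl

theorem liftD_swap (f : VD M → ℝ) (x : ℤ × ℤ) :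
    liftD M (fun v => f v.swap) x = liftD M f x.swap := by
  unfold liftD
  simp only [Prod.fst_swap, Prod.snd_swap]
  rcases foldD M x.1 with _ | ⟨σ, i⟩ <;> rcases foldD M x.2 with _ | ⟨τ, j⟩
  · rfl
  · rfl
  · rfl
  · simp only [Prod.swap_prod_mk, eq_comm]

end

end Claimed.Agent.R285.Green
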