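import Claimed.Agent.R285.Green.Defs
import Claimed.Agent.R285.Obs.Green

/-!
# ROW 285, PK-GREEN, packages GRN-C, GRN-D, GRN-E, GRN-S1, GRN-S2: real numbers only   (architect helper185)
Five independent packages in one file (file budget).  Provers: edit only the theorems of your package (private helper lemmas directly above them, prefix `grn_`), pull before landing, 3-way merge.
-/

set_option autoImplicit false

namespace Claimed.Agent.R285.Green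

open scoped BigOperators
open Claimed.Agent.R285.RG Claimed.Agent.R285.Hol

noncomputable section

/-! ## GRN-C: sine orthogonality (from `Obs.sum_sin_sin`; ~40 lines) -/

/-- [`Obs.sum_sin_sin M a.toNat b.toNat`; `Finset.sum_range_succ'` on `range M = range (M - 1 + 1)`: the term `k = 0` vanishes.] -/
theorem sine_orth (M : ℕ) (a b : ℤ) (ha : 0 < a) (haM : a < M) (hb : 0 < b) (hbM : b < M) :
    2 / (M : ℝ) * ∑ k ∈ Finset.range (M - 1), Real.sin (gth M k * (a : ℝ)) * Real.sin (gth M k * (b : ℝ))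
      = if a = b then 1 else 0 := by
  obtain ⟨x, rfl⟩ := Int.eq_ofNat_of_zero_le ha.le
  obtain ⟨y, rfl⟩ := Int.eq_ofNat_of_zero_le hb.le
  have hx : 0 < x := by exact_mod_cast ha
  have hxM : x < M := by exact_mod_cast haM
  have hy : 0 < y := by exact_mod_cast hb
  have hyM : y < M := by exact_mod_cast hbM
  have h := Obs.sum_sin_sin M x y hx hxM hy hyM
  obtain ⟨N, rfl⟩ : ∃ N, M = N + 1 := ⟨M - 1, by omega⟩
  rw [Finset.sum_range_succ'] at h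
  simp only [Nat.add_sub_cancel]
  have e : ∀ k ∈ Finset.range N,
      Real.sin (gth (N + 1) k * ((x : ℤ) : ℝ)) * Real.sin (gth (N + 1) k * ((y : ℤ) : ℝ))
        = Real.sin (Real.pi * ((k + 1 : ℕ) : ℝ) * x / ((N + 1 : ℕ) : ℝ))
          * Real.sin (Real.pi * ((k + 1 : ℕ) : ℝ) * y / ((N + 1 : ℕ) : ℝ)) := by
    intro k _
    unfold gth
    congr 2 <;> push_cast <;> ring
  rw [Finset.sum_congr rfl e]
  have h0 : Real.sin (Real.pi * ((0 : ℕ) : ℝ) * x / ((N + 1 : ℕ) : ℝ))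
      * Real.sin (Real.pi * ((0 : ℕ) : ℝ) * y / ((N + 1 : ℕ) : ℝ)) = 0 := by simp
  rw [h0, add_zero] at h
  rw [h]
  have hN : ((N + 1 : ℕ) : ℝ) ≠ 0 := by positivity
  by_cases hxy : x = y
  · subst hxy
    simp only [if_true]
    field_simp
  · have : ¬ ((x : ℤ) = y) := by exact_mod_cast hxy
    simp [hxy]

/-! ## GRN-D: the root `t = gt s` of `t² = s² (1 + t)` and the numbers `s_k` (~120 lines) -/

theorem gt_sq (s : ℝ) : gt s ^ 2 = s ^ 2 * (1 + gt s) := by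
  unfold gt
  have h : Real.sqrt (s ^ 2 + 4) ^ 2 = s ^ 2 + 4 := Real.sq_sqrt (by positivity)
  set q := Real.sqrt (s ^ 2 + 4)
  have : ((s ^ 2 + s * q) / 2) ^ 2 = (s ^ 4 + 2 * s ^ 3 * q + s ^ 2 * q ^ 2) / 4 := by ring
  rw [this, h]
  ring

theorem le_gt {s : ℝ} (hs : 0 ≤ s) : s ≤ gt s := by
  unfold gt
  have h2 : (2 : ℝ) ≤ Real.sqrt (s ^ 2 + 4) := by
    apply Real.le_sqrt_of_sq_le
    nlinarith [sq_nonneg s]
  nlinarith [sq_nonneg s, mul_le_mul_of_nonneg_left h2 hs]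

theorem gt_le {s : ℝ} (hs : 0 ≤ s) (hs2 : s ≤ 2) : gt s ≤ 3 * s := by
  unfold gt
  have h2 : Real.sqrt (s ^ 2 + 4) ≤ 3 := by
    apply Real.sqrt_le_iff.2
    constructor
    · norm_num
    · nlinarith
  nlinarith [mul_le_mul_of_nonneg_left h2 hs, mul_le_mul_of_nonneg_left hs2 hs]

/-- Jordan's inequality `2 x / π ≤ sin x` on `[0, π/2]` (`Real.mul_le_sin`) -/
theorem gs_lower (M k : ℕ) (hk : k + 1 ≤ M) : 2 * ((k : ℝ) + 1) / M ≤ gs M k := by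
  have hM : (0 : ℝ) < M := by
    have : 0 < M := by omega
    exact_mod_cast this
  have hkM : (k : ℝ) + 1 ≤ M := by exact_mod_cast hk
  have hpi := Real.pi_pos
  have h0 : 0 ≤ gth M k / 2 := by
    unfold gth
    positivity
  have h1 : gth M k / 2 ≤ Real.pi / 2 := by
    unfold gth
    have : Real.pi * ((k : ℝ) + 1) / M ≤ Real.pi := by
      rw [div_le_iff₀ hM]
      exact mul_le_mul_of_nonneg_left hkM hpi.le
    linarith
  have h := Real.mul_le_sin h0 h1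
  unfold gs
  have e : 2 / Real.pi * (gth M k / 2) = ((k : ℝ) + 1) / M := by
    unfold gth
    field_simp
  rw [e] at h
  have : 2 * ((k : ℝ) + 1) / M = 2 * (((k : ℝ) + 1) / M) := by ring
  rw [this]
  linarith

theorem gs_le_two (M k : ℕ) : gs M k ≤ 2 := by
  unfold gs
  linarith [Real.sin_le_one (gth M k / 2)]

/-- `4 sin² (θ/2) = 2 - 2 cos θ` -/
theorem gs_sq (M k : ℕ) : gs M k ^ 2 = 2 - 2 * Real.cos (gth M k) := by
  unfold gs
  have h := Real.cos_two_mul (gth M k / 2)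
  rw [show 2 * (gth M k / 2) = gth M k by ring] at h
  have h2 := Real.sin_sq_add_cos_sq (gth M k / 2)
  nlinarith

/-- `ρ + ρ⁻¹ - 2 = t² / (1 + t) = s²` -/
theorem grho_add_inv (M k : ℕ) (hk : k + 1 ≤ M) :
    grho M k + (grho M k)⁻¹ = 4 - 2 * Real.cos (gth M k) := by
  have hM : (0 : ℝ) < M := by
    have : 0 < M := by omega
    exact_mod_cast this
  have hs : 0 ≤ gs M k := le_trans (by positivity) (gs_lower M k hk)
  have ht : 0 ≤ gt (gs M k) := le_trans hs (le_gt hs)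
  have h := gt_sq (gs M k)
  have h2 := gs_sq M k
  unfold grho
  have hne : (1 + gt (gs M k)) ≠ 0 := by positivity
  rw [← sub_eq_zero]
  field_simp
  rw [h2] at h
  nlinarith

/-! ## GRN-E: the one-dimensional Green function (~300 lines; `zpow_add₀`, `zpow_neg`, `field_simp`, `zpow_le_zpow_right₀`) -/

theorem sh_zero (ρ : ℝ) : sh ρ 0 = 0 := by
  simp [sh]

theorem sh_neg (ρ : ℝ) (n : ℤ) : sh ρ (-n) = - sh ρ n := by
  unfold sh
  rw [neg_neg]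
  ring

theorem sh_pos {ρ : ℝ} (hρ : 1 < ρ) {n : ℤ} (hn : 0 < n) : 0 < sh ρ n := by
  unfold sh
  have : ρ ^ (-n) < ρ ^ n := zpow_lt_zpow_right₀ hρ (by omega)
  linarith

theorem sh_rec {ρ : ℝ} (hρ : 0 < ρ) (n : ℤ) : sh ρ (n + 1) + sh ρ (n - 1) = (ρ + ρ⁻¹) * sh ρ n := by
  unfold sh
  have h := hρ.ne'
  have e1 : ρ ^ (n + 1) = ρ ^ n * ρ := by rw [zpow_add₀ h, zpow_one]
  have e2 : ρ ^ (n - 1) = ρ ^ n * ρ⁻¹ := by rw [zpow_sub₀ h, zpow_one, div_eq_mul_inv]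
  have e3 : ρ ^ (-(n + 1)) = ρ ^ (-n) * ρ⁻¹ := by
    rw [show -(n + 1) = -n - 1 by ring, zpow_sub₀ h, zpow_one, div_eq_mul_inv]
  have e4 : ρ ^ (-(n - 1)) = ρ ^ (-n) * ρ := by
    rw [show -(n - 1) = -n + 1 by ring, zpow_add₀ h, zpow_one]
  rw [e1, e2, e3, e4]
  ring

/-- `sh 1 = t (2 + t)/(1 + t) ≥ t` -/
theorem sh_one_ge {ρ : ℝ} (hρ : 1 < ρ) : ρ - 1 ≤ sh ρ 1 := by
  unfold sh
  rw [zpow_one, zpow_neg, zpow_one]
  have : ρ⁻¹ ≤ 1 := inv_le_one_of_one_le₀ hρ.le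
  linarith

/-- `sh (M - b) ρ^b = ρ^M - ρ^{2b - M} ≤ ρ^M - ρ^{-M}` -/
theorem sh_ratio {ρ : ℝ} (hρ : 1 < ρ) {M : ℕ} (hM : 1 ≤ M) {b : ℤ} (hb : 0 ≤ b) :
    sh ρ ((M : ℤ) - b) / sh ρ M ≤ ρ ^ (-b) := by
  have h0 : (0 : ℝ) < ρ := by linarith
  have hpos : 0 < sh ρ M := sh_pos hρ (by exact_mod_cast hM)
  rw [div_le_iff₀ hpos]
  unfold sh
  have e1 : ρ ^ (-b) * (ρ ^ (M : ℤ) - ρ ^ (-(M : ℤ))) = ρ ^ ((M : ℤ) - b) - ρ ^ (-b - (M : ℤ)) := by
    rw [mul_sub, ← zpow_add₀ h0.ne', ← zpow_add₀ h0.ne']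
    congr 2 <;> ring
  rw [e1]
  have : ρ ^ (-b - (M : ℤ)) ≤ ρ ^ (-((M : ℤ) - b)) := zpow_le_zpow_right₀ hρ.le (by omega)
  linarith

/-- both branches agree at `a = b` -/
theorem g1_of_ge (ρ : ℝ) (M : ℕ) {a b : ℤ} (h : b ≤ a) :
    g1 ρ M a b = sh ρ b * sh ρ ((M : ℤ) - a) / (sh ρ 1 * sh ρ M) := by
  unfold g1
  split_ifs with h1
  · have : a = b := le_antisymm h1 h
    subst this
    rfl
  · rfl

theorem g1_of_le (ρ : ℝ) (M : ℕ) {a b : ℤ} (h : a ≤ b) :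
    g1 ρ M a b = sh ρ a * sh ρ ((M : ℤ) - b) / (sh ρ 1 * sh ρ M) := by
  unfold g1
  rw [if_pos h]

private theorem grn_sh_wronski {ρ : ℝ} (hρ : 0 < ρ) (x y : ℤ) :
    sh ρ (x + 1) * sh ρ y - sh ρ x * sh ρ (y - 1) = sh ρ 1 * sh ρ (x + y) := by
  unfold sh
  have h := hρ.ne'
  have e1 : ρ ^ (x + 1) = ρ ^ x * ρ := by rw [zpow_add₀ h, zpow_one]
  have e2 : ρ ^ (y - 1) = ρ ^ y * ρ⁻¹ := by rw [zpow_sub₀ h, zpow_one, div_eq_mul_inv]
  have e3 : ρ ^ (-(x + 1)) = (ρ ^ x)⁻¹ * ρ⁻¹ := by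
    rw [show -(x + 1) = -x - 1 by ring, zpow_sub₀ h, zpow_one, div_eq_mul_inv, zpow_neg]
  have e4 : ρ ^ (-(y - 1)) = (ρ ^ y)⁻¹ * ρ := by
    rw [show -(y - 1) = -y + 1 by ring, zpow_add₀ h, zpow_one, zpow_neg]
  have e5 : ρ ^ (x + y) = ρ ^ x * ρ ^ y := zpow_add₀ h _ _
  have e6 : ρ ^ (-(x + y)) = (ρ ^ x)⁻¹ * (ρ ^ y)⁻¹ := by
    rw [zpow_neg, e5, mul_inv]
  rw [e1, e2, e3, e4, e5, e6, zpow_neg, zpow_neg, zpow_neg, zpow_one]
  have hx : ρ ^ x ≠ 0 := zpow_ne_zero _ h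
  have hy : ρ ^ y ≠ 0 := zpow_ne_zero _ h
  field_simp
  ring

/-- **the resolvent equation**, for ALL `a ∈ ℤ`.  [`a < b`: `g1_of_le` three times + `sh_rec`; `a > b`: `g1_of_ge` three times + `sh_rec` at `M - a`;
`a = b`: `sh (x+1) sh y - sh x sh (y-1) = sh 1 sh (x + y)` (expand, `zpow_add₀`), `sh 1 sh M ≠ 0`.] -/
theorem g1_eq {ρ : ℝ} (hρ : 1 < ρ) {M : ℕ} (hM : 1 ≤ M) (a b : ℤ) :
    (ρ + ρ⁻¹) * g1 ρ M a b - g1 ρ M (a + 1) b - g1 ρ M (a - 1) b = if a = b then 1 else 0 := by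
  have h0 : (0 : ℝ) < ρ := by linarith
  have hD : sh ρ 1 * sh ρ M ≠ 0 :=
    (mul_pos (sh_pos hρ one_pos) (sh_pos hρ (by exact_mod_cast hM))).ne'
  rcases lt_trichotomy a b with h | h | h
  · rw [g1_of_le ρ M h.le, g1_of_le ρ M (show a + 1 ≤ b by omega), g1_of_le ρ M (show a - 1 ≤ b by omega),
      if_neg h.ne]
    have hr := sh_rec h0 a
    have : (ρ + ρ⁻¹) * (sh ρ a * sh ρ ((M : ℤ) - b) / (sh ρ 1 * sh ρ M))
        - sh ρ (a + 1) * sh ρ ((M : ℤ) - b) / (sh ρ 1 * sh ρ M)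
        - sh ρ (a - 1) * sh ρ ((M : ℤ) - b) / (sh ρ 1 * sh ρ M)
        = ((ρ + ρ⁻¹) * sh ρ a - (sh ρ (a + 1) + sh ρ (a - 1))) * sh ρ ((M : ℤ) - b) / (sh ρ 1 * sh ρ M) := by
      ring
    rw [this, hr]
    simp
  · subst h
    rw [g1_of_le ρ M le_rfl, g1_of_ge ρ M (show a ≤ a + 1 by omega), g1_of_le ρ M (show a - 1 ≤ a by omega),
      if_pos rfl]
    have hr := sh_rec h0 a
    have hw := grn_sh_wronski h0 a ((M : ℤ) - a)
    rw [show a + ((M : ℤ) - a) = M by ring, show (M : ℤ) - a - 1 = (M : ℤ) - (a + 1) by ring] at hw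
    have : (ρ + ρ⁻¹) * (sh ρ a * sh ρ ((M : ℤ) - a) / (sh ρ 1 * sh ρ M))
        - sh ρ a * sh ρ ((M : ℤ) - (a + 1)) / (sh ρ 1 * sh ρ M)
        - sh ρ (a - 1) * sh ρ ((M : ℤ) - a) / (sh ρ 1 * sh ρ M)
        = (((ρ + ρ⁻¹) * sh ρ a - sh ρ (a - 1)) * sh ρ ((M : ℤ) - a) - sh ρ a * sh ρ ((M : ℤ) - (a + 1)))
            / (sh ρ 1 * sh ρ M) := by
      ring
    rw [this, ← hr, add_sub_cancel_right, hw, div_self hD]
  · rw [g1_of_ge ρ M h.le, g1_of_ge ρ M (show b ≤ a + 1 by omega), g1_of_ge ρ M (show b ≤ a - 1 by omega),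
      if_neg h.ne']
    have hr := sh_rec h0 ((M : ℤ) - a)
    rw [show (M : ℤ) - a + 1 = (M : ℤ) - (a - 1) by ring, show (M : ℤ) - a - 1 = (M : ℤ) - (a + 1) by ring] at hr
    have : (ρ + ρ⁻¹) * (sh ρ b * sh ρ ((M : ℤ) - a) / (sh ρ 1 * sh ρ M))
        - sh ρ b * sh ρ ((M : ℤ) - (a + 1)) / (sh ρ 1 * sh ρ M)
        - sh ρ b * sh ρ ((M : ℤ) - (a - 1)) / (sh ρ 1 * sh ρ M)
        = sh ρ b * ((ρ + ρ⁻¹) * sh ρ ((M : ℤ) - a) - (sh ρ ((M : ℤ) - (a - 1)) + sh ρ ((M : ℤ) - (a + 1))))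
            / (sh ρ 1 * sh ρ M) := by
      ring
    rw [this, hr]
    simp

private theorem grn_sh_nonneg {ρ : ℝ} (hρ : 1 < ρ) {n : ℤ} (hn : 0 ≤ n) : 0 ≤ sh ρ n := by
  rcases hn.eq_or_lt with h | h
  · rw [← h, sh_zero]
  · exact (sh_pos hρ h).le

/-- `0 ≤ sh (M - b) / (sh 1 sh M) ≤ ρ^{-b} / (ρ - 1)` -/
private theorem grn_coef {ρ : ℝ} (hρ : 1 < ρ) {M : ℕ} (hM : 1 ≤ M) {b : ℤ} (hb : 0 ≤ b) (hbM : b ≤ M) :
    0 ≤ sh ρ ((M : ℤ) - b) / (sh ρ 1 * sh ρ M)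
      ∧ sh ρ ((M : ℤ) - b) / (sh ρ 1 * sh ρ M) ≤ ρ ^ (-b) / (ρ - 1) := by
  have h0 : (0 : ℝ) < ρ := by linarith
  have h1 : 0 < sh ρ 1 := sh_pos hρ one_pos
  have hMp : 0 < sh ρ M := sh_pos hρ (by exact_mod_cast hM)
  have hn : 0 ≤ sh ρ ((M : ℤ) - b) := grn_sh_nonneg hρ (by omega)
  refine ⟨by positivity, ?_⟩
  have e : sh ρ ((M : ℤ) - b) / (sh ρ 1 * sh ρ M) = sh ρ ((M : ℤ) - b) / sh ρ M / sh ρ 1 := by
    rw [mul_comm, div_div]
  rw [e]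
  have hr := sh_ratio hρ hM hb
  have hq : 0 ≤ sh ρ ((M : ℤ) - b) / sh ρ M := by positivity
  have hz : 0 < ρ ^ (-b) := zpow_pos h0 _
  calc sh ρ ((M : ℤ) - b) / sh ρ M / sh ρ 1 ≤ ρ ^ (-b) / sh ρ 1 := by gcongr
    _ ≤ ρ ^ (-b) / (ρ - 1) := by
      apply div_le_div_of_nonneg_left hz.le (by linarith) (sh_one_ge hρ)

/-- [`sh_ratio`, `sh_one_ge`, `ρ^{-a} ≤ ρ^a`.] -/
theorem g1_coef {ρ : ℝ} (hρ : 1 < ρ) {M : ℕ} (hM : 1 ≤ M) {a b : ℤ} (ha : 0 ≤ a) (hb : 0 ≤ b) (hbM : b ≤ M) :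
    |sh ρ ((M : ℤ) - b) / (sh ρ 1 * sh ρ M)| * (ρ ^ a + ρ ^ (-a)) ≤ 2 * ρ ^ (a - b) / (ρ - 1) := by
  have h0 : (0 : ℝ) < ρ := by linarith
  obtain ⟨c0, c1⟩ := grn_coef hρ hM hb hbM
  rw [abs_of_nonneg c0]
  have hle : ρ ^ (-a) ≤ ρ ^ a := zpow_le_zpow_right₀ hρ.le (by omega)
  have hpa : 0 < ρ ^ a := zpow_pos h0 _
  have hpa' : 0 < ρ ^ (-a) := zpow_pos h0 _
  have e : 2 * ρ ^ (a - b) / (ρ - 1) = ρ ^ (-b) / (ρ - 1) * (2 * ρ ^ a) := by
    rw [show a - b = -b + a by ring, zpow_add₀ h0.ne']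
    ring
  rw [e]
  apply mul_le_mul c1 (by linarith) (by positivity)
  have : 0 < ρ - 1 := by linarith
  have := zpow_pos h0 (-b)
  positivity

private theorem grn_abs_aux {ρ : ℝ} (hρ : 1 < ρ) {M : ℕ} (hM : 1 ≤ M) {a b : ℤ} (ha : 0 ≤ a) (hab : a ≤ b)
    (hbM : b ≤ M) :
    |sh ρ a * sh ρ ((M : ℤ) - b) / (sh ρ 1 * sh ρ M)| ≤ 1 / ((ρ - 1) * ρ ^ (b - a).natAbs) := by
  have h0 : (0 : ℝ) < ρ := by linarith
  have h1 : 0 < ρ - 1 := by linarith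
  obtain ⟨c0, c1⟩ := grn_coef hρ hM (le_trans ha hab) hbM
  have hsa : 0 ≤ sh ρ a := grn_sh_nonneg hρ ha
  have hsa' : sh ρ a ≤ ρ ^ a := by
    unfold sh
    have := zpow_pos h0 (-a)
    linarith
  have e : sh ρ a * sh ρ ((M : ℤ) - b) / (sh ρ 1 * sh ρ M) = sh ρ a * (sh ρ ((M : ℤ) - b) / (sh ρ 1 * sh ρ M)) := by
    ring
  rw [e, abs_of_nonneg (mul_nonneg hsa c0)]
  have e2 : (1 : ℝ) / ((ρ - 1) * ρ ^ (b - a).natAbs) = ρ ^ a * (ρ ^ (-b) / (ρ - 1)) := by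
    have : ((b - a).natAbs : ℤ) = b - a := by omega
    rw [← zpow_natCast, this, zpow_sub₀ h0.ne', zpow_neg]
    have hpa : ρ ^ a ≠ 0 := zpow_ne_zero _ h0.ne'
    have hpb : ρ ^ b ≠ 0 := zpow_ne_zero _ h0.ne'
    field_simp
  rw [e2]
  exact mul_le_mul hsa' c1 c0 (zpow_pos h0 _).le

/-- [`a ≤ b`: `sh a ≤ ρ^a`, `sh_ratio`, `sh_one_ge`; `b ≤ a`: `sh_ratio` with `M - b` in place of `b`.] -/
theorem g1_abs_le {ρ : ℝ} (hρ : 1 < ρ) {M : ℕ} (hM : 1 ≤ M) {a b : ℤ} (ha : 0 ≤ a) (haM : a ≤ M) (hb : 0 ≤ b) (hbM : b ≤ M) :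
    |g1 ρ M a b| ≤ 1 / ((ρ - 1) * ρ ^ (a - b).natAbs) := by
  rcases le_total a b with h | h
  · rw [g1_of_le ρ M h, show (a - b).natAbs = (b - a).natAbs by omega]
    exact grn_abs_aux hρ hM ha h hbM
  · rw [g1_of_ge ρ M h]
    exact grn_abs_aux hρ hM hb h haM

private theorem grn_dif_aux {ρ : ℝ} (hρ : 1 < ρ) {M : ℕ} (hM : 1 ≤ M) {a b : ℤ} (ha : 0 ≤ a) (hab : a + 1 ≤ b)
    (hbM : b ≤ M) :
    |(sh ρ (a + 1) - sh ρ a) * (sh ρ ((M : ℤ) - b) / (sh ρ 1 * sh ρ M))| ≤ 2 := by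
  have h0 : (0 : ℝ) < ρ := by linarith
  have h1 : 0 < ρ - 1 := by linarith
  obtain ⟨c0, c1⟩ := grn_coef hρ hM (by omega : (0 : ℤ) ≤ b) hbM
  have e : sh ρ (a + 1) - sh ρ a = (ρ - 1) * (ρ ^ a + ρ ^ (-(a + 1))) := by
    unfold sh
    have e1 : ρ ^ (a + 1) = ρ ^ a * ρ := by rw [zpow_add₀ h0.ne', zpow_one]
    have e2 : ρ ^ (-a) = ρ ^ (-(a + 1)) * ρ := by
      rw [← zpow_add_one₀ h0.ne']
      congr 1
      ring
    rw [e1, e2]
    ring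
  have hp1 : 0 < ρ ^ a := zpow_pos h0 _
  have hp2 : 0 < ρ ^ (-(a + 1)) := zpow_pos h0 _
  have hle : ρ ^ (-(a + 1)) ≤ ρ ^ a := zpow_le_zpow_right₀ hρ.le (by omega)
  have hd0 : 0 ≤ sh ρ (a + 1) - sh ρ a := by
    rw [e]
    positivity
  have hd1 : sh ρ (a + 1) - sh ρ a ≤ (ρ - 1) * (2 * ρ ^ a) := by
    rw [e]
    apply mul_le_mul_of_nonneg_left _ h1.le
    linarith
  rw [abs_of_nonneg (mul_nonneg hd0 c0)]
  calc (sh ρ (a + 1) - sh ρ a) * (sh ρ ((M : ℤ) - b) / (sh ρ 1 * sh ρ M))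
      ≤ (ρ - 1) * (2 * ρ ^ a) * (ρ ^ (-b) / (ρ - 1)) := mul_le_mul hd1 c1 c0 (by positivity)
    _ = 2 * ρ ^ (a - b) := by
      rw [show a - b = a + -b by ring, zpow_add₀ h0.ne']
      field_simp
    _ ≤ 2 * 1 := by
      apply mul_le_mul_of_nonneg_left _ (by norm_num)
      exact zpow_le_one_of_nonpos₀ hρ.le (by omega)
    _ = 2 := by norm_num

/-- [`a + 1 ≤ b`: `sh (a+1) - sh a = (ρ - 1)(ρ^a + ρ^{-a-1}) ≤ 2 (ρ - 1) ρ^a`, then `sh_ratio`, `sh_one_ge`: `≤ 2 ρ^{a-b} ≤ 2`; `b ≤ a`: symmetric, `sh (M-a) - sh (M-a-1)`.] -/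
theorem g1_dif_le {ρ : ℝ} (hρ : 1 < ρ) {M : ℕ} (hM : 1 ≤ M) {a b : ℤ} (ha : 0 ≤ a) (haM : a < M) (hb : 0 ≤ b) (hbM : b ≤ M) :
    |g1 ρ M (a + 1) b - g1 ρ M a b| ≤ 2 := by
  rcases lt_or_ge a b with h | h
  · rw [g1_of_le ρ M (show a + 1 ≤ b by omega), g1_of_le ρ M h.le]
    have := grn_dif_aux hρ hM ha (show a + 1 ≤ b by omega) hbM
    convert this using 2
    ring
  · rw [g1_of_ge ρ M (show b ≤ a + 1 by omega), g1_of_ge ρ M h]
    have := grn_dif_aux hρ hM (a := (M : ℤ) - (a + 1)) (b := (M : ℤ) - b) (by omega) (by omega) (by omega)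
    rw [show (M : ℤ) - (a + 1) + 1 = (M : ℤ) - a by ring, show (M : ℤ) - ((M : ℤ) - b) = b by ring, ← abs_neg] at this
    convert this using 2
    ring

/-! ## GRN-S1: the sum for the derivatives (~200 lines) -/

/-- one term of `sum_der` in the main case -/
theorem grn_sum_der_term {t τ Q : ℝ} (hτ : 0 ≤ τ) (hτt : τ ≤ t) (hQ : 1 ≤ Q) (p d q : ℕ) (hq : (q : ℝ) = Q) (hqd : q * (p + 2) ≤ d) :
    t ^ p / (1 + t) ^ d ≤ (1 / Q) ^ p * (1 / (1 + Q * τ) ^ 2) := by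
  have ht : 0 ≤ t := hτ.trans hτt
  have hQ0 : 0 < Q := by linarith
  have b1 : (1 + Q * t) ^ (p + 2) ≤ (1 + t) ^ d := by
    calc (1 + Q * t) ^ (p + 2) ≤ ((1 + t) ^ q) ^ (p + 2) := by
          refine pow_le_pow_left₀ (by positivity) ?_ _
          rw [← hq]
          exact one_add_mul_le_pow (by linarith) q
      _ = (1 + t) ^ (q * (p + 2)) := by rw [← pow_mul]
      _ ≤ (1 + t) ^ d := pow_le_pow_right₀ (by linarith) hqd
  have b2 : t ^ p / (1 + t) ^ d ≤ t ^ p / (1 + Q * t) ^ (p + 2) :=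
    div_le_div_of_nonneg_left (by positivity) (by positivity) b1
  refine b2.trans ?_
  have e : t ^ p / (1 + Q * t) ^ (p + 2) = (t / (1 + Q * t)) ^ p * (1 / (1 + Q * t) ^ 2) := by
    rw [div_pow, pow_add]
    field_simp
  rw [e]
  refine mul_le_mul ?_ ?_ (by positivity) (by positivity)
  · refine pow_le_pow_left₀ (by positivity) ?_ _
    rw [div_le_div_iff₀ (by positivity) hQ0]
    nlinarith
  · refine div_le_div_of_nonneg_left (by norm_num) (by positivity) ?_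
    refine pow_le_pow_left₀ (by positivity) ?_ _
    nlinarith

/-- telescoping bound -/
theorem grn_tele {c : ℝ} (hc : 0 < c) (N : ℕ) :
    ∑ k ∈ Finset.range N, 1 / (1 + c * ((k : ℝ) + 1)) ^ 2 ≤ 1 / c := by
  have h : ∀ k ∈ Finset.range N, 1 / (1 + c * ((k : ℝ) + 1)) ^ 2
      ≤ 1 / c * (1 / (1 + c * (k : ℝ)) - 1 / (1 + c * ((k + 1 : ℕ) : ℝ))) := by
    intro k _
    have hk : (0 : ℝ) ≤ k := Nat.cast_nonneg k
    have p1 : 0 < 1 + c * (k : ℝ) := by positivity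
    have p2 : 0 < 1 + c * ((k : ℝ) + 1) := by positivity
    have e : 1 / c * (1 / (1 + c * (k : ℝ)) - 1 / (1 + c * ((k + 1 : ℕ) : ℝ))) = 1 / ((1 + c * (k : ℝ)) * (1 + c * ((k : ℝ) + 1))) := by
      push_cast
      field_simp
      ring
    rw [e]
    refine div_le_div_of_nonneg_left (by norm_num) (by positivity) ?_
    rw [sq]
    refine mul_le_mul_of_nonneg_right ?_ p2.le
    nlinarith
  refine (Finset.sum_le_sum h).trans ?_
  rw [← Finset.mul_sum, Finset.sum_range_sub' (fun k : ℕ => 1 / (1 + c * (k : ℝ)))]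
  have : 0 ≤ 1 / (1 + c * (N : ℝ)) := by positivity
  have h1 : 1 / c * (1 / (1 + c * ((0 : ℕ) : ℝ)) - 1 / (1 + c * (N : ℝ))) ≤ 1 / c * 1 := by
    refine mul_le_mul_of_nonneg_left ?_ (by positivity)
    simp only [Nat.cast_zero, mul_zero, add_zero, div_one]
    linarith
  simpa using h1

/-- [`d ≤ r`: every term is `≤ 6^{r-1}`, so LHS `≤ 4 · 6^{r-1}`, and `(1 + d)^r ≤ (r + 1)^r`.
`d ≥ r + 1`: `q = d / (r + 1) ≥ 1` (ℕ division), `(1 + t)^d ≥ ((1 + t)^q)^{r+1} ≥ (1 + q t)^{r+1}` (`one_add_mul_le_pow`), `t^{r-1}/(1 + q t)^{r-1} ≤ q^{-(r-1)}`,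
`1/(1 + q t_k)² ≤ 1/((1 + c k)(1 + c (k+1))) = c⁻¹ (1/(1 + c k) - 1/(1 + c (k+1)))`, `c = 2 q / M` (`Finset.sum_range_sub'`): LHS `≤ 2 / q^r`; `d + 1 ≤ (q + 1)(r + 1) ≤ 2 q (r + 1)`.] -/
theorem sum_der (M : ℕ) (hM : 1 ≤ M) (t : ℕ → ℝ) (h1 : ∀ k < M - 1, 2 * ((k : ℝ) + 1) / M ≤ t k)
    (h2 : ∀ k < M - 1, t k ≤ 6) (r d : ℕ) (hr : 1 ≤ r) :
    4 / (M : ℝ) * ∑ k ∈ Finset.range (M - 1), t k ^ (r - 1) / (1 + t k) ^ d
      ≤ (16 * ((r : ℝ) + 1)) ^ r / (1 + (d : ℝ)) ^ r := by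
  have hM0 : (0 : ℝ) < M := by exact_mod_cast hM
  have ht0 : ∀ k < M - 1, 0 < t k := fun k hk => lt_of_lt_of_le (by positivity) (h1 k hk)
  obtain ⟨p, rfl⟩ : ∃ p, r = p + 1 := ⟨r - 1, by omega⟩
  rw [Nat.add_sub_cancel]
  by_cases hd : d ≤ p + 1
  · have hterm : ∀ k ∈ Finset.range (M - 1), t k ^ p / (1 + t k) ^ d ≤ 6 ^ p := by
      intro k hk
      have hk' := Finset.mem_range.mp hk
      have h0 := ht0 k hk'
      have : 1 ≤ (1 + t k) ^ d := one_le_pow₀ (by linarith)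
      calc t k ^ p / (1 + t k) ^ d ≤ t k ^ p := div_le_self (by positivity) this
        _ ≤ 6 ^ p := pow_le_pow_left₀ h0.le (h2 k hk') p
    have hsum := Finset.sum_le_sum hterm
    rw [Finset.sum_const, Finset.card_range, nsmul_eq_mul] at hsum
    have hM1 : ((M - 1 : ℕ) : ℝ) ≤ M := by exact_mod_cast Nat.sub_le M 1
    have hL : 4 / (M : ℝ) * ∑ k ∈ Finset.range (M - 1), t k ^ p / (1 + t k) ^ d ≤ 4 * 6 ^ p := by
      calc _ ≤ 4 / (M : ℝ) * ((M : ℝ) * 6 ^ p) := by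
            refine mul_le_mul_of_nonneg_left (hsum.trans ?_) (by positivity)
            exact mul_le_mul_of_nonneg_right hM1 (by positivity)
        _ = 4 * 6 ^ p := by field_simp
    refine hL.trans ?_
    rw [le_div_iff₀ (by positivity), mul_pow]
    have a1 : (1 + (d : ℝ)) ^ (p + 1) ≤ (((p + 1 : ℕ) : ℝ) + 1) ^ (p + 1) := by
      refine pow_le_pow_left₀ (by positivity) ?_ _
      have : (d : ℝ) ≤ ((p + 1 : ℕ) : ℝ) := by exact_mod_cast hd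
      linarith
    have a2 : (4 : ℝ) * 6 ^ p ≤ 16 ^ (p + 1) := by
      rw [pow_succ]
      have : (6 : ℝ) ^ p ≤ 16 ^ p := pow_le_pow_left₀ (by norm_num) (by norm_num) p
      have h0 : (0 : ℝ) < 6 ^ p := by positivity
      linarith
    exact mul_le_mul a2 a1 (by positivity) (by positivity)
  · push Not at hd
    obtain ⟨q, hq1, hq2, hq3⟩ : ∃ q : ℕ, 1 ≤ q ∧ q * (p + 2) ≤ d ∧ d < (q + 1) * (p + 2) := by
      refine ⟨d / (p + 2), ?_, Nat.div_mul_le_self d (p + 2), ?_⟩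
      · exact (Nat.one_le_div_iff (by omega)).mpr (by omega)
      · have := Nat.lt_div_mul_add (a := d) (b := p + 2) (by omega)
        linarith [this]
    have hQ : (1 : ℝ) ≤ q := by exact_mod_cast hq1
    have hQ0 : (0 : ℝ) < q := by linarith
    set c : ℝ := 2 * (q : ℝ) / M with hc
    have hc0 : 0 < c := by positivity
    have hterm : ∀ k ∈ Finset.range (M - 1), t k ^ p / (1 + t k) ^ d
        ≤ (1 / (q : ℝ)) ^ p * (1 / (1 + c * ((k : ℝ) + 1)) ^ 2) := by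
      intro k hk
      have hk' := Finset.mem_range.mp hk
      have := grn_sum_der_term (t := t k) (τ := 2 * ((k : ℝ) + 1) / M) (Q := q) (by positivity) (h1 k hk') hQ p d q rfl hq2
      have e : (q : ℝ) * (2 * ((k : ℝ) + 1) / M) = c * ((k : ℝ) + 1) := by rw [hc]; ring
      rw [e] at this
      exact this
    have hsum := (Finset.sum_le_sum hterm)
    rw [← Finset.mul_sum] at hsum
    have hsum2 : ∑ k ∈ Finset.range (M - 1), t k ^ p / (1 + t k) ^ d ≤ (1 / (q : ℝ)) ^ p * (1 / c) :=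
      hsum.trans (mul_le_mul_of_nonneg_left (grn_tele hc0 _) (by positivity))
    have hL : 4 / (M : ℝ) * ∑ k ∈ Finset.range (M - 1), t k ^ p / (1 + t k) ^ d ≤ 2 / (q : ℝ) ^ (p + 1) := by
      calc _ ≤ 4 / (M : ℝ) * ((1 / (q : ℝ)) ^ p * (1 / c)) := mul_le_mul_of_nonneg_left hsum2 (by positivity)
        _ = 2 / (q : ℝ) ^ (p + 1) := by
          rw [hc, pow_succ, one_div, inv_pow]
          field_simp
          ring
    refine hL.trans ?_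
    rw [div_le_div_iff₀ (by positivity) (by positivity)]
    have a1 : (1 + (d : ℝ)) ≤ 2 * q * (((p + 1 : ℕ) : ℝ) + 1) := by
      have h' : d + 1 ≤ 2 * q * (p + 1 + 1) := by nlinarith
      have : ((d + 1 : ℕ) : ℝ) ≤ ((2 * q * (p + 1 + 1) : ℕ) : ℝ) := by exact_mod_cast h'
      push_cast at this ⊢
      linarith
    have a2 : (1 + (d : ℝ)) ^ (p + 1) ≤ (2 * q * (((p + 1 : ℕ) : ℝ) + 1)) ^ (p + 1) := pow_le_pow_left₀ (by positivity) a1 _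
    have a3 : (2 : ℝ) * 2 ^ (p + 1) ≤ 16 ^ (p + 1) := by
      rw [pow_succ, pow_succ]
      have : (2 : ℝ) ^ p ≤ 16 ^ p := pow_le_pow_left₀ (by norm_num) (by norm_num) p
      have h0 : (0 : ℝ) < 2 ^ p := by positivity
      linarith
    calc 2 * (1 + (d : ℝ)) ^ (p + 1) ≤ 2 * (2 * q * (((p + 1 : ℕ) : ℝ) + 1)) ^ (p + 1) := by linarith
      _ = (2 * 2 ^ (p + 1)) * ((((p + 1 : ℕ) : ℝ) + 1) ^ (p + 1) * (q : ℝ) ^ (p + 1)) := by
          rw [mul_pow, mul_pow]; ring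
      _ ≤ 16 ^ (p + 1) * ((((p + 1 : ℕ) : ℝ) + 1) ^ (p + 1) * (q : ℝ) ^ (p + 1)) :=
          mul_le_mul_of_nonneg_right a3 (by positivity)
      _ = (16 * (((p + 1 : ℕ) : ℝ) + 1)) ^ (p + 1) * (q : ℝ) ^ (p + 1) := by
          rw [mul_pow]; ring

/-! ## GRN-S2: the sum for the value (~200 lines) -/

theorem grn_harm (n : ℕ) : ∑ k ∈ Finset.range n, 1 / ((k : ℝ) + 1) ≤ 1 + Real.log n := by
  have h := harmonic_le_one_add_log n
  have e : ((harmonic n : ℚ) : ℝ) = ∑ k ∈ Finset.range n, 1 / ((k : ℝ) + 1) := by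
    unfold harmonic
    push_cast
    refine Finset.sum_congr rfl fun k _ => ?_
    rw [one_div]
  rw [e] at h
  exact h

/-- telescoping tail -/
theorem grn_tail (m : ℕ) (hm : 1 ≤ m) (N : ℕ) :
    ∑ i ∈ Finset.range N, 1 / (((m + i : ℕ) : ℝ) + 1) ^ 2 ≤ 1 / (m : ℝ) := by
  have hm0 : (0 : ℝ) < m := by exact_mod_cast hm
  have h : ∀ i ∈ Finset.range N, 1 / (((m + i : ℕ) : ℝ) + 1) ^ 2
      ≤ 1 / ((m + i : ℕ) : ℝ) - 1 / ((m + (i + 1) : ℕ) : ℝ) := by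
    intro i _
    have hi : (0 : ℝ) < ((m + i : ℕ) : ℝ) := by
      have : 0 < m + i := by omega
      exact_mod_cast this
    have e : 1 / ((m + i : ℕ) : ℝ) - 1 / ((m + (i + 1) : ℕ) : ℝ) = 1 / (((m + i : ℕ) : ℝ) * (((m + i : ℕ) : ℝ) + 1)) := by
      have : ((m + (i + 1) : ℕ) : ℝ) = ((m + i : ℕ) : ℝ) + 1 := by push_cast; ring
      rw [this]
      field_simp
      ring
    rw [e]
    refine div_le_div_of_nonneg_left (by norm_num) (by positivity) ?_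
    nlinarith
  refine (Finset.sum_le_sum h).trans ?_
  rw [Finset.sum_range_sub' (fun i : ℕ => 1 / ((m + i : ℕ) : ℝ))]
  have : 0 ≤ 1 / ((m + N : ℕ) : ℝ) := by positivity
  simp only [add_zero]
  linarith

/-- [`(1 + t)^d ≥ 1 + d t`; term `≤ M / (2 (k+1)) · 1/(1 + 2 d (k+1)/M)`; LHS `≤ ∑_{m=1}^{M-1} 1/(m (1 + 2 d m / M))`.  `d = 0`: `harmonic_le_one_add_log`.
`d ≥ 1`: `m₀ = M / (1 + d) ≥ 1` (ℕ division); `m ≤ m₀`: `∑ 1/m ≤ 1 + log m₀ ≤ 1 + log (M/(1+d))`; `m > m₀`: `∑ M/(2 d m²) ≤ M/(2 d m₀) ≤ (1 + d)/d ≤ 2` (`1/m² ≤ 1/(m-1) - 1/m`, `M < (m₀ + 1)(1 + d) ≤ 2 m₀ (1 + d)`).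
`Real.posLog_eq_log`/`Real.log_le_posLog`... : `log x ≤ posLog x`.] -/
theorem sum_val (M : ℕ) (hM : 2 ≤ M) (t : ℕ → ℝ) (h1 : ∀ k < M - 1, 2 * ((k : ℝ) + 1) / M ≤ t k)
    (d : ℕ) (hd : d + 1 ≤ M) :
    2 / (M : ℝ) * ∑ k ∈ Finset.range (M - 1), 1 / (t k * (1 + t k) ^ d)
      ≤ 3 * (1 + Real.posLog ((M : ℝ) / (1 + d))) := by
  have hM0 : (0 : ℝ) < M := by
    have : 0 < M := by omega
    exact_mod_cast this
  set c : ℝ := 2 * (d : ℝ) / M with hc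
  have hc0 : 0 ≤ c := by positivity
  -- step 1: termwise
  have hterm : ∀ k ∈ Finset.range (M - 1), 2 / (M : ℝ) * (1 / (t k * (1 + t k) ^ d))
      ≤ 1 / (((k : ℝ) + 1) * (1 + c * ((k : ℝ) + 1))) := by
    intro k hk
    have hk' := Finset.mem_range.mp hk
    have hτ : (0 : ℝ) < 2 * ((k : ℝ) + 1) / M := by positivity
    have ht := h1 k hk'
    have ht0 : 0 < t k := hτ.trans_le ht
    have b1 : 1 + (d : ℝ) * t k ≤ (1 + t k) ^ d := one_add_mul_le_pow (by linarith) d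
    have b2 : 1 + c * ((k : ℝ) + 1) ≤ (1 + t k) ^ d := by
      refine le_trans ?_ b1
      have : c * ((k : ℝ) + 1) = (d : ℝ) * (2 * ((k : ℝ) + 1) / M) := by rw [hc]; ring
      rw [this]
      have : (d : ℝ) * (2 * ((k : ℝ) + 1) / M) ≤ (d : ℝ) * t k := mul_le_mul_of_nonneg_left ht (Nat.cast_nonneg d)
      linarith
    have b3 : (2 * ((k : ℝ) + 1) / M) * (1 + c * ((k : ℝ) + 1)) ≤ t k * (1 + t k) ^ d :=
      mul_le_mul ht b2 (by positivity) ht0.le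
    calc 2 / (M : ℝ) * (1 / (t k * (1 + t k) ^ d))
        ≤ 2 / (M : ℝ) * (1 / ((2 * ((k : ℝ) + 1) / M) * (1 + c * ((k : ℝ) + 1)))) := by
          refine mul_le_mul_of_nonneg_left ?_ (by positivity)
          exact div_le_div_of_nonneg_left (by norm_num) (by positivity) b3
      _ = 1 / (((k : ℝ) + 1) * (1 + c * ((k : ℝ) + 1))) := by
          field_simp
  rw [Finset.mul_sum]
  refine (Finset.sum_le_sum hterm).trans ?_
  have hpl : 0 ≤ Real.posLog ((M : ℝ) / (1 + d)) := Real.posLog_nonneg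
  rcases Nat.eq_zero_or_pos d with hd0 | hd0
  · -- d = 0
    subst hd0
    have hc' : c = 0 := by rw [hc]; simp
    simp only [hc', zero_mul, add_zero, mul_one]
    refine (grn_harm (M - 1)).trans ?_
    have l1 : Real.log ((M - 1 : ℕ) : ℝ) ≤ Real.log (M : ℝ) := by
      refine Real.log_le_log ?_ (by exact_mod_cast Nat.sub_le M 1)
      have : 0 < M - 1 := by omega
      exact_mod_cast this
    have l2 : Real.log (M : ℝ) ≤ Real.posLog ((M : ℝ) / (1 + (0 : ℕ))) := by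
      simp only [Nat.cast_zero, add_zero, div_one]
      exact le_max_right _ _
    linarith
  · obtain ⟨m, hm1, hm2, hm3⟩ : ∃ m : ℕ, 1 ≤ m ∧ m * (1 + d) ≤ M ∧ M < (m + 1) * (1 + d) := by
      refine ⟨M / (1 + d), ?_, Nat.div_mul_le_self M (1 + d), ?_⟩
      · exact (Nat.one_le_div_iff (by omega)).mpr (by omega)
      · have := Nat.lt_div_mul_add (a := M) (b := 1 + d) (by omega)
        linarith [this]
    have hm0 : (0 : ℝ) < m := by exact_mod_cast hm1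
    have hdr : (1 : ℝ) ≤ d := by exact_mod_cast hd0
    have hcp : 0 < c := by positivity
    have hnn : ∀ k : ℕ, 0 ≤ 1 / (((k : ℝ) + 1) * (1 + c * ((k : ℝ) + 1))) := fun k => by positivity
    have s1 : ∑ k ∈ Finset.range (M - 1), 1 / (((k : ℝ) + 1) * (1 + c * ((k : ℝ) + 1)))
        ≤ ∑ k ∈ Finset.range (m + (M - 1)), 1 / (((k : ℝ) + 1) * (1 + c * ((k : ℝ) + 1))) := by
      refine Finset.sum_le_sum_of_subset_of_nonneg ?_ (fun k _ _ => hnn k)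
      exact Finset.range_subset_range.mpr (by omega)
    refine s1.trans ?_
    rw [Finset.sum_range_add]
    have p1 : ∑ k ∈ Finset.range m, 1 / (((k : ℝ) + 1) * (1 + c * ((k : ℝ) + 1))) ≤ 1 + Real.log m := by
      refine le_trans (Finset.sum_le_sum fun k _ => ?_) (grn_harm m)
      refine div_le_div_of_nonneg_left (by norm_num) (by positivity) ?_
      have : 0 ≤ c * ((k : ℝ) + 1) := by positivity
      nlinarith
    have p2 : ∑ i ∈ Finset.range (M - 1), 1 / ((((m + i : ℕ) : ℝ) + 1) * (1 + c * (((m + i : ℕ) : ℝ) + 1))) ≤ 1 / c * (1 / (m : ℝ)) := by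
      refine le_trans (Finset.sum_le_sum fun i _ => ?_) (le_trans (le_of_eq (Finset.mul_sum _ _ _).symm)
        (mul_le_mul_of_nonneg_left (grn_tail m hm1 (M - 1)) (by positivity : 0 ≤ 1 / c)))
      have hx : (0 : ℝ) < ((m + i : ℕ) : ℝ) + 1 := by positivity
      have e : 1 / c * (1 / (((m + i : ℕ) : ℝ) + 1) ^ 2) = 1 / ((((m + i : ℕ) : ℝ) + 1) * (c * (((m + i : ℕ) : ℝ) + 1))) := by
        field_simp
      rw [e]
      refine div_le_div_of_nonneg_left (by norm_num) (by positivity) ?_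
      refine mul_le_mul_of_nonneg_left ?_ hx.le
      linarith
    have p3 : 1 / c * (1 / (m : ℝ)) ≤ 2 := by
      have hMle : (M : ℝ) ≤ 4 * d * m := by
        have h' : M ≤ 4 * d * m := by nlinarith
        exact_mod_cast h'
      rw [hc]
      have e : 1 / (2 * (d : ℝ) / M) * (1 / (m : ℝ)) = (M : ℝ) / (2 * d * m) := by
        field_simp
      rw [e, div_le_iff₀ (by positivity)]
      linarith
    have p4 : Real.log m ≤ Real.posLog ((M : ℝ) / (1 + d)) := by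
      refine le_trans (Real.log_le_log hm0 ?_) (le_max_right _ _)
      rw [le_div_iff₀ (by positivity)]
      exact_mod_cast hm2
    linarith

end

end Claimed.Agent.R285.Green
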