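import Claimed.Agent.R285.Green.Fold
import Claimed.Agent.R285.Green.Dl
import Claimed.Agent.R285.Green.Num

/-!
# ROW 285, PK-GREEN: the killed Laplacian through the odd lift (GRN-F), minimum principle (GRN-G), lift of `g1` (GRN-H), the formula `greenD = gH` (GRN-I, J)   (architect helper185)
Provers: edit only the theorems of your package (helper lemmas directly above them, prefix `grn_`), pull before landing, 3-way merge.
-/

set_option autoImplicit false

namespace Claimed.Agent.R285.Green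

open scoped BigOperators
open Claimed.Agent.R285.RG Claimed.Agent.R285.Hol

noncomputable section

variable {M : ℕ}

/-! ## GRN-F: `lapD` = minus the plane Laplacian of the odd lift (~200 lines) -/

theorem grn_gpos_iff (u v : VD M) : gpos u = gpos v ↔ u = v := by
  constructor
  · intro h
    unfold gpos at h
    have h1 := congrArg Prod.fst h
    have h2 := congrArg Prod.snd h
    simp only at h1 h2
    ext <;> omega
  · intro h; rw [h]

/-- the lift on the closed square as a sum over the interior vertices -/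
theorem grn_lift_sum (f : VD M → ℝ) (p : ℤ × ℤ) (h1 : 0 ≤ p.1) (h2 : p.1 ≤ M) (h3 : 0 ≤ p.2) (h4 : p.2 ≤ M) :
    liftD M f p = ∑ u : VD M, if gpos u = p then f u else 0 := by
  by_cases hb : p.1 = 0 ∨ p.1 = M ∨ p.2 = 0 ∨ p.2 = M
  · rw [liftD_bdry f p hb]
    symm
    refine Finset.sum_eq_zero fun u _ => ?_
    rw [if_neg]
    intro hu
    have hu1 := u.1.isLt
    have hu2 := u.2.isLt
    have a1 : ((u.1 : ℕ) : ℤ) + 1 = p.1 := congrArg Prod.fst hu
    have a2 : ((u.2 : ℕ) : ℤ) + 1 = p.2 := congrArg Prod.snd hu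
    omega
  · have : ∃ v : VD M, gpos v = p := by
      refine ⟨(⟨(p.1 - 1).toNat, by omega⟩, ⟨(p.2 - 1).toNat, by omega⟩), ?_⟩
      unfold gpos
      ext <;> simp <;> omega
    obtain ⟨v, rfl⟩ := this
    rw [liftD_gpos]
    simp only [grn_gpos_iff]
    rw [Finset.sum_ite_eq' Finset.univ v f, if_pos (Finset.mem_univ v)]

theorem grn_lapD_eq (v u : VD M) :
    lapD M v u = (if u = v then 4 else 0) - ∑ e : Fin 4, if gpos u = gpos v + dir e then (1 : ℝ) else 0 := by
  rw [Fin.sum_univ_four]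
  unfold lapD gpos dir
  simp only [Prod.ext_iff, Fin.ext_iff, Matrix.cons_val_zero, Matrix.cons_val_one, Matrix.cons_val, Prod.fst_add, Prod.snd_add]
  split_ifs <;> first | omega | norm_num

/-- [For each `e`: `liftD M f (gpos v + dir e) = ∑ u, if gpos u = gpos v + dir e then f u else 0` (the point is `gpos u` for a unique `u`: `liftD_gpos`, `Finset.sum_ite_eq`-like; or it lies on a boundary line: `liftD_bdry`, no `u`).
`Matrix.mulVec`, `dotProduct`: `∑ u, lapD M v u * f u`, `lapD M v u = (if v = u then 4 else 0) - ∑ e, if gpos u = gpos v + dir e then 1 else 0` (cases by `omega` after `Fin.sum_univ_four`, `dir`, `Prod.ext_iff`).] -/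
theorem lapD_mulVec (f : VD M → ℝ) (v : VD M) :
    (lapD M).mulVec f v = - lapZ (liftD M f) (gpos v) := by
  have hv1 := v.1.isLt
  have hv2 := v.2.isLt
  have hav : (gpos v).2 = ((v.2 : ℕ) : ℤ) + 1 := rfl
  have hav1 : (gpos v).1 = ((v.1 : ℕ) : ℤ) + 1 := rfl
  have e1 : (lapD M).mulVec f v = ∑ u : VD M, lapD M v u * f u := rfl
  rw [e1]
  simp only [grn_lapD_eq, sub_mul, Finset.sum_sub_distrib, Finset.sum_mul, ite_mul, zero_mul, one_mul]
  rw [Finset.sum_ite_eq' Finset.univ v (fun u => 4 * f u), if_pos (Finset.mem_univ v), Finset.sum_comm]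
  unfold lapZ dif
  rw [Finset.sum_sub_distrib, liftD_gpos]
  have : ∀ e : Fin 4, liftD M f (gpos v + dir e) = ∑ u : VD M, if gpos u = gpos v + dir e then f u else 0 := by
    intro e
    have hd : -1 ≤ (dir e).2 ∧ (dir e).2 ≤ 1 ∧ -1 ≤ (dir e).1 ∧ (dir e).1 ≤ 1 := by
      fin_cases e <;> simp [dir]
    exact grn_lift_sum f _ (by rw [Prod.fst_add]; omega) (by rw [Prod.fst_add]; omega) (by rw [Prod.snd_add]; omega)
      (by rw [Prod.snd_add]; omega)
  simp only [this]
  simp

/-! ## GRN-G: minimum principle (~150 lines) -/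

theorem grn_closed_cases (p : ℤ × ℤ) (h1 : 0 ≤ p.1) (h2 : p.1 ≤ M) (h3 : 0 ≤ p.2) (h4 : p.2 ≤ M) :
    (p.1 = 0 ∨ p.1 = M ∨ p.2 = 0 ∨ p.2 = M) ∨ ∃ v : VD M, gpos v = p := by
  by_cases hb : p.1 = 0 ∨ p.1 = M ∨ p.2 = 0 ∨ p.2 = M
  · exact Or.inl hb
  · right
    refine ⟨(⟨(p.1 - 1).toNat, by omega⟩, ⟨(p.2 - 1).toNat, by omega⟩), ?_⟩
    unfold gpos
    ext <;> simp <;> omega

/-- [Let `m = min f < 0` (`Finset.exists_min_image`).  By strong induction on `a : ℕ`: no `v` with `v.1 = a` and `f v = m`.  At such a `v`, by `lapD_mulVec`: `∑_e (liftD f (gpos v + dir e) - m) ≤ 0`, and each term is `≥ 0`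
(the neighbour is some `gpos u`: `f u ≥ m`; or on a boundary line: `0 > m`), so all vanish; the term `e = 1` (left neighbour): value `m < 0`, so not on the boundary, so `= gpos u` with `u.1 = a - 1`, `f u = m`.] -/
theorem min_principle (f : VD M → ℝ) (h : ∀ v, 0 ≤ (lapD M).mulVec f v) (v : VD M) : 0 ≤ f v := by
  by_contra hneg
  push Not at hneg
  obtain ⟨v₀, -, hmin⟩ := Finset.exists_min_image Finset.univ f ⟨v, Finset.mem_univ v⟩
  have hm0 : f v₀ < 0 := (hmin v (Finset.mem_univ v)).trans_lt hneg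
  have hnb : ∀ (u : VD M) (e : Fin 4), f v₀ ≤ liftD M f (gpos u + dir e) := by
    intro u e
    have hu1 := u.1.isLt
    have hu2 := u.2.isLt
    have hav : (gpos u).2 = ((u.2 : ℕ) : ℤ) + 1 := rfl
    have hav1 : (gpos u).1 = ((u.1 : ℕ) : ℤ) + 1 := rfl
    have hd : -1 ≤ (dir e).2 ∧ (dir e).2 ≤ 1 ∧ -1 ≤ (dir e).1 ∧ (dir e).1 ≤ 1 := by
      fin_cases e <;> simp [dir]
    rcases grn_closed_cases (M := M) (gpos u + dir e) (by rw [Prod.fst_add]; omega) (by rw [Prod.fst_add]; omega)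
      (by rw [Prod.snd_add]; omega) (by rw [Prod.snd_add]; omega) with hb | ⟨u', hu'⟩
    · rw [liftD_bdry f _ hb]; exact hm0.le
    · rw [← hu', liftD_gpos]; exact hmin u' (Finset.mem_univ u')
  have key : ∀ (a : ℕ) (u : VD M), (u.1 : ℕ) = a → f u ≠ f v₀ := by
    intro a
    induction a with
    | zero =>
      intro u hu hfu
      have h1 := h u
      rw [lapD_mulVec] at h1
      unfold lapZ dif at h1
      rw [Fin.sum_univ_four, liftD_gpos, hfu] at h1
      have n0 := hnb u 0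
      have n1 := hnb u 1
      have n2 := hnb u 2
      have n3 := hnb u 3
      have hb : liftD M f (gpos u + dir 1) = 0 := by
        refine liftD_bdry f _ (Or.inl ?_)
        have hav1 : (gpos u).1 = ((u.1 : ℕ) : ℤ) + 1 := rfl
        rw [Prod.fst_add, hav1, hu]
        simp [dir]
      rw [hb] at h1 n1
      linarith
    | succ a ih =>
      intro u hu hfu
      have h1 := h u
      rw [lapD_mulVec] at h1
      unfold lapZ dif at h1
      rw [Fin.sum_univ_four, liftD_gpos, hfu] at h1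
      have n0 := hnb u 0
      have n1 := hnb u 1
      have n2 := hnb u 2
      have n3 := hnb u 3
      have hu1 := u.1.isLt
      have hp : gpos ((⟨a, by omega⟩, u.2) : VD M) = gpos u + dir 1 := by
        unfold gpos
        ext
        · simp [dir, hu]
        · simp [dir]
      rw [← hp, liftD_gpos] at h1 n1
      exact ih (⟨a, by omega⟩, u.2) rfl (by linarith)
  exact key _ v₀ rfl rfl

/-! ## GRN-H: the odd lift of `g1 (·, b)` is `g1 (·, b)` on `[-b, 2M - b]` (~120 lines) -/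

theorem grn_lift1_int (f : ℤ → ℝ) {a : ℤ} (h1 : 0 < a) (h2 : a < M) :
    lift1 M (fun i => f (((i : ℕ) : ℤ) + 1)) a = f a := by
  have h := lift1_pos (fun i : Fin (M - 1) => f (((i : ℕ) : ℤ) + 1)) ⟨(a - 1).toNat, by omega⟩
  have e : (((⟨(a - 1).toNat, by omega⟩ : Fin (M - 1)) : ℕ) : ℤ) + 1 = a := by
    simp only
    omega
  rw [e] at h
  exact h

/-- [`0 < a < M`: `lift1_pos` with `i = a - 1`; `a = 0`, `a = M`: `lift1_zero`, `lift1_M`, `sh_zero`; `-b ≤ a < 0`: `lift1_neg`, `g1_of_le`, `sh_neg`; `M < a ≤ 2M - b`: `lift1 a = lift1 (a - 2M) = - lift1 (2M - a)`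
(`lift1_period`, `lift1_neg`), `g1_of_ge`, `sh_neg`.] -/
theorem lift1_g1 (ρ : ℝ) {b : ℤ} (hb : 0 < b) (hbM : b < M) {a : ℤ} (h1 : -b ≤ a) (h2 : a ≤ 2 * (M : ℤ) - b) :
    lift1 M (fun i => g1 ρ M (((i : ℕ) : ℤ) + 1) b) a = g1 ρ M a b := by
  rcases lt_trichotomy a 0 with ha | ha | ha
  · have e : a = -(-a) := by ring
    rw [e, lift1_neg, grn_lift1_int (fun x => g1 ρ M x b) (by omega) (by omega), g1_of_le _ _ (by omega), g1_of_le _ _ (by omega),
      sh_neg ρ (-a)]
    ring
  · subst ha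
    rw [lift1_zero, g1_of_le _ _ hb.le, sh_zero]
    ring
  · rcases lt_trichotomy a M with hM | hM | hM
    · exact grn_lift1_int (fun x => g1 ρ M x b) ha hM
    · subst hM
      rw [lift1_M, g1_of_ge _ _ hbM.le, sub_self, sh_zero]
      ring
    · have e : a = -(2 * (M : ℤ) - a) + 2 * (M : ℤ) := by ring
      have e2 : (M : ℤ) - (2 * (M : ℤ) - a) = -((M : ℤ) - a) := by ring
      conv_lhs => rw [e]
      rw [lift1_period, lift1_neg, grn_lift1_int (fun x => g1 ρ M x b) (by omega) (by omega), g1_of_ge _ _ (by omega),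
        g1_of_ge _ _ (by omega), e2, sh_neg]
      ring

/-- [`lift1_of_odd` with `s x = sin (gth M k * x)`: `gth M k * (2 M) = (k + 1) (2π)`, `Real.sin_add_nat_mul_two_pi`.] -/
theorem lift1_sin (hM : 1 ≤ M) (k : ℕ) (x : ℤ) :
    lift1 M (fun i => Real.sin (gth M k * (((((i : ℕ) : ℤ) + 1 : ℤ)) : ℝ))) x = Real.sin (gth M k * (x : ℝ)) := by
  refine lift1_of_odd hM (fun x : ℤ => Real.sin (gth M k * (x : ℝ))) ?_ ?_ x
  · intro y
    push_cast
    rw [mul_neg, Real.sin_neg]
  · intro y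
    have hM0 : (M : ℝ) ≠ 0 := by
      have : 0 < M := by omega
      exact_mod_cast this.ne'
    have e : gth M k * ((y + 2 * (M : ℤ) : ℤ) : ℝ) = gth M k * (y : ℝ) + ((k + 1 : ℕ) : ℝ) * (2 * Real.pi) := by
      unfold gth
      push_cast
      field_simp
    rw [e, Real.sin_add_nat_mul_two_pi]

/-! ## GRN-I: the lift of the explicit kernel (~150 lines) -/

/-- [`liftD_smul`, `liftD_sum`, `liftD_mul`, `lift1_sin`.] -/
theorem lift_gH_prod (hM : 1 ≤ M) (w : VD M) (x : ℤ × ℤ) :
    liftD M (fun v => gH M v w) x = 2 / (M : ℝ) * ∑ k ∈ Finset.range (M - 1),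
      Real.sin (gth M k * (x.1 : ℝ)) * Real.sin (gth M k * ((gpos w).1 : ℝ))
        * lift1 M (fun i => g1 (grho M k) M (((i : ℕ) : ℤ) + 1) (gpos w).2) x.2 := by
  unfold gH gU
  rw [liftD_smul, liftD_sum]
  congr 1
  refine Finset.sum_congr rfl fun k _ => ?_
  have e : (fun v : VD M => Real.sin (gth M k * ((gpos v).1 : ℝ)) * Real.sin (gth M k * ((gpos w).1 : ℝ))
        * g1 (grho M k) M (gpos v).2 (gpos w).2)
      = fun v : VD M => Real.sin (gth M k * ((gpos w).1 : ℝ)) *
        ((fun i : Fin (M - 1) => Real.sin (gth M k * (((((i : ℕ) : ℤ) + 1 : ℤ)) : ℝ))) v.1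
          * (fun i : Fin (M - 1) => g1 (grho M k) M (((i : ℕ) : ℤ) + 1) (gpos w).2) v.2) := by
    funext v
    unfold gpos
    ring
  rw [e, liftD_smul, liftD_mul (fun i : Fin (M - 1) => Real.sin (gth M k * (((((i : ℕ) : ℤ) + 1 : ℤ)) : ℝ)))
    (fun i : Fin (M - 1) => g1 (grho M k) M (((i : ℕ) : ℤ) + 1) (gpos w).2), lift1_sin hM]
  ring

theorem lift_gH (w : VD M) (x : ℤ × ℤ) (h1 : -(gpos w).2 ≤ x.2) (h2 : x.2 ≤ 2 * (M : ℤ) - (gpos w).2) :
    liftD M (fun v => gH M v w) x = gU M w x := by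
  have hw2 := w.2.isLt
  have hbv : (gpos w).2 = ((w.2 : ℕ) : ℤ) + 1 := rfl
  rw [lift_gH_prod (by omega)]
  unfold gU
  congr 1
  refine Finset.sum_congr rfl fun k _ => ?_
  rw [lift1_g1 _ (by omega) (by omega) h1 h2]

/-! ## GRN-J: `lapD * gH = 1` (~200 lines) -/

/-- [termwise: `sin (θ (x+1)) + sin (θ (x-1)) = 2 cos θ sin (θ x)`, `grho_add_inv`, `g1_eq`.] -/
theorem lapZ_gU (w : VD M) (x : ℤ × ℤ) :
    - lapZ (gU M w) x = (2 / (M : ℝ) * ∑ k ∈ Finset.range (M - 1),
      Real.sin (gth M k * (x.1 : ℝ)) * Real.sin (gth M k * ((gpos w).1 : ℝ))) * (if x.2 = (gpos w).2 then 1 else 0) := by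
  have hw2 := w.2.isLt
  unfold lapZ dif
  rw [Fin.sum_univ_four]
  unfold gU
  rw [mul_assoc, Finset.sum_mul]
  have e : ∀ a b c d e : ℝ, -(2 / (M : ℝ) * a - 2 / (M : ℝ) * e + (2 / (M : ℝ) * b - 2 / (M : ℝ) * e) + (2 / (M : ℝ) * c - 2 / (M : ℝ) * e)
      + (2 / (M : ℝ) * d - 2 / (M : ℝ) * e)) = 2 / (M : ℝ) * (4 * e - a - b - c - d) := by
    intro a b c d e; ring
  rw [e, Finset.mul_sum, ← Finset.sum_sub_distrib, ← Finset.sum_sub_distrib, ← Finset.sum_sub_distrib, ← Finset.sum_sub_distrib]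
  congr 1
  refine Finset.sum_congr rfl fun k hk => ?_
  have hk' : k < M - 1 := Finset.mem_range.mp hk
  have hs : 0 < gs M k := by
    have h1 := gs_lower M k (by omega)
    have hM : (0 : ℝ) < M := by
      have : 0 < M := by omega
      exact_mod_cast this
    have h0 : (0 : ℝ) < 2 * ((k : ℝ) + 1) / M := by positivity
    exact h0.trans_le h1
  have hρ : 1 < grho M k := by
    have := le_gt hs.le
    unfold grho
    linarith
  have hg := g1_eq hρ (by omega : 1 ≤ M) x.2 (gpos w).2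
  rw [grho_add_inv M k (by omega)] at hg
  rw [← hg]
  have d0 : x + dir 0 = (x.1 + 1, x.2) := by ext <;> simp [dir]
  have d1 : x + dir 1 = (x.1 - 1, x.2) := by ext <;> simp [dir, sub_eq_add_neg]
  have d2 : x + dir 2 = (x.1, x.2 + 1) := by ext <;> simp [dir]
  have d3 : x + dir 3 = (x.1, x.2 - 1) := by ext <;> simp [dir, sub_eq_add_neg]
  rw [d0, d1, d2, d3]
  simp only
  have s1 : Real.sin (gth M k * ((x.1 + 1 : ℤ) : ℝ)) = Real.sin (gth M k * (x.1 : ℝ)) * Real.cos (gth M k)
      + Real.cos (gth M k * (x.1 : ℝ)) * Real.sin (gth M k) := by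
    push_cast
    rw [mul_add, mul_one, Real.sin_add]
  have s2 : Real.sin (gth M k * ((x.1 - 1 : ℤ) : ℝ)) = Real.sin (gth M k * (x.1 : ℝ)) * Real.cos (gth M k)
      - Real.cos (gth M k * (x.1 : ℝ)) * Real.sin (gth M k) := by
    push_cast
    rw [mul_sub, mul_one, Real.sin_sub]
  rw [s1, s2]
  ring

/-- [`Matrix.mul_apply` = `mulVec` of the column; `lapD_mulVec`; `lapZ` only sees the four neighbours and the point: `lift_gH`; `lapZ_gU`; `sine_orth`.] -/
theorem lapD_mul_gH (M : ℕ) : lapD M * gH M = 1 := by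
  ext v w
  have hw1 := w.1.isLt
  have hw2 := w.2.isLt
  have hv1 := v.1.isLt
  have hv2 := v.2.isLt
  have hbv : (gpos w).2 = ((w.2 : ℕ) : ℤ) + 1 := rfl
  have hav : (gpos v).2 = ((v.2 : ℕ) : ℤ) + 1 := rfl
  have hbv1 : (gpos w).1 = ((w.1 : ℕ) : ℤ) + 1 := rfl
  have hav1 : (gpos v).1 = ((v.1 : ℕ) : ℤ) + 1 := rfl
  have e1 : (lapD M * gH M) v w = (lapD M).mulVec (fun u => gH M u w) v := by
    rw [Matrix.mul_apply]; rfl
  have e2 : lapZ (liftD M (fun u => gH M u w)) (gpos v) = lapZ (gU M w) (gpos v) := by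
    unfold lapZ dif
    refine Finset.sum_congr rfl fun e _ => ?_
    have hd : -1 ≤ (dir e).2 ∧ (dir e).2 ≤ 1 := by
      fin_cases e <;> simp [dir]
    rw [lift_gH w _ (by rw [Prod.snd_add]; omega) (by rw [Prod.snd_add]; omega), lift_gH w _ (by omega) (by omega)]
  rw [e1, lapD_mulVec, e2, lapZ_gU, sine_orth M _ _ (by omega) (by omega) (by omega) (by omega), Matrix.one_apply]
  by_cases h : v = w
  · subst h; simp
  · rw [if_neg h]
    by_cases h1 : (gpos v).1 = (gpos w).1
    · have h2 : (gpos v).2 ≠ (gpos w).2 := by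
        intro h2
        apply h
        ext <;> omega
      rw [if_neg h2, mul_zero]
    · rw [if_neg h1, zero_mul]

theorem greenD_eq (M : ℕ) : greenD M = gH M := by
  unfold greenD
  exact Matrix.inv_eq_right_inv (lapD_mul_gH M)

theorem lapD_mul_greenD (M : ℕ) : lapD M * greenD M = 1 := by
  rw [greenD_eq]; exact lapD_mul_gH M

/-- the column of `greenD` solves the killed Poisson equation -/
theorem lapD_mulVec_greenD (v w : VD M) :
    (lapD M).mulVec (fun u => greenD M u w) v = if v = w then 1 else 0 := by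
  have h := congrFun (congrFun (lapD_mul_greenD M) v) w
  rw [Matrix.mul_apply, Matrix.one_apply] at h
  exact h

theorem greenD_nonneg (v w : VD M) : 0 ≤ greenD M v w := by
  refine min_principle (fun u => greenD M u w) (fun u => ?_) v
  rw [lapD_mulVec_greenD]
  split_ifs <;> norm_num

theorem lapZ_gL (v w : VD M) : lapZ (gL M w) (gpos v) = - (if v = w then 1 else 0) := by
  have h := lapD_mulVec (fun u => greenD M u w) v
  rw [lapD_mulVec_greenD] at h
  unfold gL
  rw [h, neg_neg]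

/-- [`lapD M v.swap w.swap = lapD M v w` (`add_comm`, `Prod.swap_inj`); `Matrix.inv_submatrix_equiv` with `Equiv.prodComm`.] -/
theorem greenD_swap (v w : VD M) : greenD M v.swap w.swap = greenD M v w := by
  have h : (lapD M).submatrix (Equiv.prodComm _ _) (Equiv.prodComm _ _) = lapD M := by
    ext a b
    simp only [Matrix.submatrix_apply, Equiv.prodComm_apply]
    unfold lapD
    simp only [Prod.swap_inj, Prod.fst_swap, Prod.snd_swap]
    simp only [add_comm]
  have h2 := Matrix.inv_submatrix_equiv (lapD M) (Equiv.prodComm _ _) (Equiv.prodComm _ _)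
  rw [h] at h2
  unfold greenD
  conv_rhs => rw [h2]
  rfl

theorem gL_swap (w : VD M) (x : ℤ × ℤ) : gL M w.swap x.swap = gL M w x := by
  unfold gL
  rw [← liftD_swap]
  congr 1
  funext v
  exact greenD_swap v w

theorem gL_eq_gU (w : VD M) (x : ℤ × ℤ) (h1 : -(gpos w).2 ≤ x.2) (h2 : x.2 ≤ 2 * (M : ℤ) - (gpos w).2) :
    gL M w x = gU M w x := by
  unfold gL
  rw [greenD_eq]
  exact lift_gH w x h1 h2

end

end Claimed.Agent.R285.Green
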